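import Vale.Agent.P167.H825.S.All
import Vale.Agent.P167.H199.QOmQ

/-!
# P167, general `q`, block Q-START: the lower bound `H7S`
-/

namespace Vale.Agent.P167.H825.S

open Finset MeasureTheory Filter
open Vale.Agent.P167.BR
open Vale.Agent.P167.FK
open Vale.Agent.P167.FKA (Loc Ind ArmDec)
open Vale.Agent.P167.E6 (IsPolygon Encloses)
open Vale.Agent.P167.XDL (bS)
open Vale.Agent.P167.H519 (IsLim)
open Vale.Agent.P167.H825 (enl Marks dv)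
open Vale.Agent.P167.H825.Q (Row Bc)
open Vale.Agent.P167.H680.T (rowC uI frows mem_uI)
open Vale.Agent.P167.H662 (hsite)
open Vale.Agent.P167.H685 (LE)
open Vale.Agent.P167.H199 (Gap exists_Gap)
open Vale.Agent.P167.H562.QM (MajA)
open Vale.Agent.P167.QX (QL TB TO fLp VisL)
open Vale.Agent.P167.H398.Q
open Vale.Agent.P167.H506.Q (EF exists_good)
open Vale.Agent.P167.Enl (BGap exists_BGap box_disj gn_big tB qN)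

variable {θ β : ℝ} {P : Measure Cfg}

theorem small_pow {α C N ε : ℝ} (hα : 0 < α) (hC : 0 ≤ C) (hN : 0 ≤ N) (hε : 0 < ε) :
    ∃ x₀ : ℝ, 0 < x₀ ∧ ∀ x : ℝ, 0 ≤ x → x ≤ x₀ → N * (C * x ^ α) ≤ ε := by
  have hk : 0 < N * C + 1 := by positivity
  refine ⟨(ε / (N * C + 1)) ^ (1 / α), Real.rpow_pos_of_pos (by positivity) _, fun x hx hx' => ?_⟩
  have h1 : x ^ α ≤ ε / (N * C + 1) := by
    calc x ^ α ≤ ((ε / (N * C + 1)) ^ (1 / α)) ^ α := Real.rpow_le_rpow hx hx' hα.le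
      _ = ε / (N * C + 1) := by
        rw [← Real.rpow_mul (by positivity), one_div_mul_cancel hα.ne', Real.rpow_one]
  have h2 : 0 ≤ x ^ α := Real.rpow_nonneg hx _
  have h3 : N * C * x ^ α ≤ N * C * (ε / (N * C + 1)) :=
    mul_le_mul_of_nonneg_left h1 (by positivity)
  have h4 : N * C * (ε / (N * C + 1)) ≤ ε := by
    rw [← mul_div_assoc, div_le_iff₀ hk]
    nlinarith [mul_nonneg hN hC]
  calc N * (C * x ^ α) = N * C * x ^ α := by ring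
    _ ≤ ε := h3.trans h4

/-- Ratio of two radii. -/
theorem ratio_le {a b t : ℝ} (ht0 : 0 < t) (ht : t ≤ 1 / 2) (hab : a ≤ t * b) (ha : 4 ≤ a) :
    (((⌊a⌋ + 1 : ℤ) : ℝ) / ((⌊b⌋ - 1 : ℤ) : ℝ)) ≤ 2 * t ∧
      0 ≤ (((⌊a⌋ + 1 : ℤ) : ℝ) / ((⌊b⌋ - 1 : ℤ) : ℝ)) ∧ ⌊a⌋ + 2 ≤ ⌊b⌋ := by
  have a1 := Int.floor_le a
  have a2 := Int.lt_floor_add_one a
  have b1 := Int.floor_le b
  have b2 := Int.lt_floor_add_one b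
  have hb : 2 * a ≤ b := by nlinarith
  have h1 : (0 : ℝ) < ⌊b⌋ - 1 := by linarith
  push_cast
  refine ⟨?_, ?_, ?_⟩
  · rw [div_le_iff₀ h1]
    nlinarith
  · exact div_nonneg (by linarith) h1.le
  · have : ((⌊a⌋ + 2 : ℤ) : ℝ) < ((⌊b⌋ + 1 : ℤ) : ℝ) := by push_cast; linarith
    have h2 : ⌊a⌋ + 2 < ⌊b⌋ + 1 := by exact_mod_cast this
    omega

/-- Ratio of two radii, second form. -/
theorem ratio_le' {a b x : ℝ} (ha : 0 ≤ a) (hab : 2 * a ≤ x * b) (hb : 2 ≤ b) :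
    ((⌊a⌋ : ℤ) : ℝ) / ((⌊b⌋ : ℤ) : ℝ) ≤ x ∧ 0 ≤ ((⌊a⌋ : ℤ) : ℝ) / ((⌊b⌋ : ℤ) : ℝ) := by
  have a1 := Int.floor_le a
  have a0 : 0 ≤ ⌊a⌋ := Int.floor_nonneg.2 ha
  have a0' : (0 : ℝ) ≤ ⌊a⌋ := by exact_mod_cast a0
  have b2 := Int.lt_floor_add_one b
  have h1 : (0 : ℝ) < ⌊b⌋ := by linarith
  have hx : 0 ≤ x := by
    by_contra h
    push Not at h
    nlinarith
  refine ⟨?_, div_nonneg a0' h1.le⟩
  rw [div_le_iff₀ h1]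
  nlinarith

theorem arm_two {N e : ℝ} (hN : 0 ≤ N) (he : 0 ≤ e) (h : (8 * N + 1) * e ≤ 1 / 2) :
    e < 1 ∧ 8 * N * e ≤ 1 := by
  have := mul_nonneg hN he
  constructor <;> linarith

/-- The radii. -/
theorem radii {g κL κ' κ₃ κ₄ t s₁ s₂ δ n x₁ : ℝ} (hn : 16 ≤ δ * n) (hn0 : 0 < n)
    (hs1 : 4 ≤ s₁) (hs12 : s₁ ≤ t * s₂) (hs2 : 8 ≤ s₂) (hκ34 : κ₃ ≤ t * κ₄)
    (d4 : δ * (32 * s₂) < g) (d5 : δ * s₂ < κL) (d6 : δ * s₂ < κ₃)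
    (d7 : δ * (4 * s₂) < x₁ * κ₃) (d8 : δ < x₁ * g / 64) (m1 : κ₄ ≤ κL) (m2 : κ₄ ≤ g / 32)
    (k4 : κ' < g / 32) :
    64 ≤ s₁ * δ * n ∧ s₁ * δ * n ≤ t * (s₂ * δ * n) ∧ s₂ * δ * n ≤ κ₃ * n ∧
      s₂ * δ * n ≤ κL * n ∧ 32 * (s₂ * δ * n) ≤ g * n ∧ 128 ≤ s₂ * δ * n ∧
      κ₃ * n ≤ t * (κ₄ * n) ∧ κ₄ * n ≤ κL * n ∧ 32 * (κ₄ * n) ≤ g * n ∧
      32 * (κ' * n) ≤ g * n ∧ 2 * (s₂ * δ * n) ≤ x₁ * (κ₃ * n) ∧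
      2 * (4 * δ * n) ≤ x₁ * (g / 8 * n) ∧ 4 * δ * n ≤ g / 8 * n ∧ 4 * δ * n ≤ s₁ * δ * n := by
  have mm : ∀ {a b : ℝ}, a ≤ b → a * n ≤ b * n := fun h => mul_le_mul_of_nonneg_right h hn0.le
  have dn : 0 ≤ δ * n := by linarith
  have a1 := mul_le_mul_of_nonneg_right hs1 dn
  have a2 := mul_le_mul_of_nonneg_right hs12 dn
  have a3 := mul_le_mul_of_nonneg_right hs2 dn
  have a4 := mm hκ34
  have a5 := mm d4.le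
  have a6 := mm d5.le
  have a7 := mm d6.le
  have a8 := mm d7.le
  have a9 := mm d8.le
  have a10 := mm m1
  have a11 := mm m2
  have a12 := mm k4.le
  refine ⟨?_, ?_, ?_, ?_, ?_, ?_, ?_, ?_, ?_, ?_, ?_, ?_, ?_, ?_⟩ <;> linarith

/-- **(H7S) The lower bound.** -/
theorem h7s (h0 : 0 < θ) (h1 : θ ≤ Real.pi / 3)
    (hβ : β = (θ - Real.pi) / 2 ∨ β = (Real.pi - 3 * θ) / 2)
    (hP : IsLim (2 * Real.cos θ) P) (hL : L2S θ β) (hP2 : P2S θ β P) (hH : H2S θ β P) :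
    H7S θ β P := by
  classical
  intro l _ p S₀ hp hD Q hQ bc hb
  have hPp : IsProbabilityMeasure P := hP.1
  obtain ⟨α, C, hα, hC, hA, -⟩ := FKA.arm_fk (H680.T.cos_le h0 h1) (K8.k_rsw θ h0.le h1)
  have hG := H199.good_aeQ h0.le h1 hP h0
  obtain ⟨g1, hg1, hgap1⟩ := exists_Gap hQ l
  obtain ⟨g2, hg2, hbg2⟩ := exists_BGap hb
  obtain ⟨g, hg0, hgap, hbg⟩ : ∃ g : ℝ, 0 < g ∧ Gap Q l g ∧ BGap l Q g bc :=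
    ⟨min g1 g2, lt_min hg1 hg2,
      ⟨fun i hi j hj => by linarith [hgap1.1 i hi j hj, min_le_left g1 g2],
        fun j hj => (min_le_left _ _).trans (hgap1.2 j hj)⟩, hbg2.mono (min_le_right _ _)⟩
  obtain ⟨κL, hκL, hL⟩ := hL l p S₀ hp hD Q hQ bc hb
  obtain ⟨κP, hκP, hP2⟩ := hP2 l p S₀ hp hD Q hQ bc hb
  obtain ⟨κH, hκH, hH⟩ := hH l p S₀ hp hD Q hQ bc hb 1 0 one_pos
  refine ⟨min (min κL κP) (min κH (g / 32)), by positivity, fun κ' hκ' hκ'1 => ?_⟩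
  have k1 : κ' < κL := hκ'1.trans_le ((min_le_left _ _).trans (min_le_left _ _))
  have k2 : κ' < κP := hκ'1.trans_le ((min_le_left _ _).trans (min_le_right _ _))
  have k3 : κ' < κH := hκ'1.trans_le ((min_le_right _ _).trans (min_le_left _ _))
  have k4 : κ' < g / 32 := hκ'1.trans_le ((min_le_right _ _).trans (min_le_right _ _))
  obtain ⟨A, δL, hA1, hδL, hL⟩ := hL κ' hκ' k1
  obtain ⟨CP, δP, κ3, hCP, hδP, hκ3, hP2⟩ := hP2 κ' hκ' k2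
  obtain ⟨M, δH, hM, hδH, hH⟩ := hH κ' hκ' k3 A hA1
  obtain ⟨N, hNdef⟩ : ∃ N : ℝ, N = ((univ : Finset (Fin l × Fin (Q.m + 1))).card : ℝ) := ⟨_, rfl⟩
  have hN0 : 0 ≤ N := by rw [hNdef]; exact Nat.cast_nonneg _
  obtain ⟨x₀, hx₀, hx₀'⟩ := small_pow (N := N) (ε := min (1 / 2) (1 / (2 * CP))) hα hC.le hN0
    (by positivity)
  obtain ⟨x₁, hx₁, hx₁'⟩ := small_pow (N := 8 * N + 1) (ε := 1 / 2) hα hC.le (by positivity)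
    (by norm_num)
  obtain ⟨t, ht0, ht1, ht2, ht3⟩ : ∃ t : ℝ, 0 < t ∧ t ≤ 1 / 2 ∧ t ≤ κ3 ∧ 2 * t ≤ x₀ := by
    refine ⟨min (1 / 2) (min κ3 (x₀ / 2)), by positivity, min_le_left _ _,
      (min_le_right _ _).trans (min_le_left _ _), ?_⟩
    have : min (1 / 2) (min κ3 (x₀ / 2)) ≤ x₀ / 2 := (min_le_right _ _).trans (min_le_right _ _)
    linarith
  refine ⟨64 * M ^ 2 * CP ^ 2, t, by positivity, ht0, by linarith, ?_⟩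
  intro s₁ s₂ κ₃ κ₄ hs1 hs12 hκ₃ hκ34 hκ₃t hκ₄
  have m1 : κ₄ ≤ κL := hκ₄.trans ((min_le_left _ _).trans (min_le_left _ _))
  have m2 : κ₄ ≤ g / 32 := hκ₄.trans ((min_le_right _ _).trans (min_le_right _ _))
  have hs2 : 8 ≤ s₂ := by
    by_contra hc
    push Not at hc
    rcases le_or_gt s₂ 0 with h | h
    · linarith [mul_nonpos_of_nonneg_of_nonpos ht0.le h]
    · linarith [mul_le_mul_of_nonneg_right ht1 h.le]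
  have hs20 : 0 < s₂ := by linarith
  refine ⟨min (min δL δP) (min δH (min (g / (32 * s₂)) (min (κL / s₂)
    (min (κ₃ / s₂) (min (x₁ * κ₃ / (4 * s₂)) (x₁ * g / 64)))))), by positivity, ?_⟩
  intro δ hδ hδ'
  simp only [lt_min_iff] at hδ'
  obtain ⟨⟨d1, d2⟩, d3, d4, d5, d6, d7, d8⟩ := hδ'
  rw [lt_div_iff₀ (by positivity)] at d4 d5 d6 d7
  have dg : 4 * δ ≤ g := by linarith [mul_le_mul_of_nonneg_left hs2 hδ.le]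
  filter_upwards [hL δ hδ d1, hP2 δ hδ d2, hH δ hδ d3, eventually_ge_atTop ⌈16 / δ⌉₊] with
    n nL nP nH nn
  have hn : 16 ≤ δ * n := by
    have h1 : 16 / δ ≤ n := (Nat.le_ceil _).trans (by exact_mod_cast nn)
    rw [div_le_iff₀ hδ] at h1
    linarith
  have hn0 : (0 : ℝ) < n := by
    by_contra h
    push Not at h
    linarith [mul_nonpos_of_nonneg_of_nonpos hδ.le h]
  intro σ hσ
  obtain ⟨σ', hσ'g, hσ'⟩ := exists_good (uI (frows θ β p Q n ⌊δ * (n : ℝ)⌋₊ bc)) σ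
  have hσ'f : Frz (frows θ β p Q n ⌊δ * (n : ℝ)⌋₊ bc) σ' := frz_of hσ hσ'
  rw [← EF_eq hσ', ← EF_eq hσ']
  obtain ⟨Z, B₁, B₂, N₁, N₂, hZ, hN1, hN2, hMaj1, hMaj2, -, hm1, hm2⟩ := nH σ' hσ'f
  -- the radii
  obtain ⟨e1, e2, e3, e4, e5, e6, e7, e8, e9, e10, e12, e13, e14, e15⟩ :=
    radii hn hn0 hs1 hs12 hs2 hκ34 d4 d5 d6 d7 d8 m1 m2 k4
  have e11 : 0 ≤ κ' * n := by positivity
  obtain ⟨r1, r2, r3⟩ := ratio_le ht0 ht1 e2 (by linarith)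
  obtain ⟨r4, r5, r6⟩ := ratio_le ht0 ht1 e7 (by linarith)
  obtain ⟨r7, r8⟩ := ratio_le' (a := s₂ * δ * n) (b := κ₃ * n) (x := x₁) (by linarith)
    e12 (by linarith)
  obtain ⟨r9, r10⟩ := ratio_le' (a := 4 * δ * n) (b := g / 8 * n) (x := x₁) (by positivity)
    e13 (by linarith)
  have arm1 : N * (C * (((⌊s₁ * δ * n⌋ + 1 : ℤ) : ℝ) / ((⌊s₂ * δ * n⌋ - 1 : ℤ) : ℝ)) ^ α) ≤
      1 / 2 := (hx₀' _ r2 (r1.trans ht3)).trans (min_le_left _ _)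
  have arm2 : N * (C * (((⌊κ₃ * n⌋ + 1 : ℤ) : ℝ) / ((⌊κ₄ * n⌋ - 1 : ℤ) : ℝ)) ^ α) ≤
      1 / (2 * CP) := (hx₀' _ r5 (r4.trans ht3)).trans (min_le_right _ _)
  have arm3 := hx₁' _ r8 r7
  have arm4 := hx₁' _ r10 r9
  have q3 : 0 ≤ C * (((⌊s₂ * δ * n⌋ : ℤ) : ℝ) / ((⌊κ₃ * n⌋ : ℤ) : ℝ)) ^ α :=
    mul_nonneg hC.le (Real.rpow_nonneg r8 _)
  have q4 : 0 ≤ C * (((⌊4 * δ * n⌋ : ℤ) : ℝ) / ((⌊g / 8 * n⌋ : ℤ) : ℝ)) ^ α :=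
    mul_nonneg hC.le (Real.rpow_nonneg r10 _)
  have fl : ∀ x : ℝ, (⌊x⌋ : ℝ) ≤ x := Int.floor_le
  have R1 : ⌊4 * δ * n⌋ ≤ ⌊s₁ * δ * n⌋ := Int.floor_le_floor e15
  obtain ⟨t1, t2, t3⟩ := tip_rad hn R1
  have R23 : ⌊s₂ * δ * n⌋ ≤ ⌊κ₃ * n⌋ := Int.floor_le_floor e3
  have R2K : ⌊s₂ * δ * n⌋ ≤ ⌊κL * n⌋ := Int.floor_le_floor e4
  have R4K : ⌊κ₄ * n⌋ ≤ ⌊κL * n⌋ := Int.floor_le_floor e8
  have Rg2 : (2 * (⌊s₂ * δ * n⌋ : ℤ) : ℝ) + 4 < g * n := by linarith [fl (s₂ * δ * n)]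
  have Rg4 : (2 * (⌊κ₄ * n⌋ : ℤ) : ℝ) + 4 < g * n := by linarith [fl (κ₄ * n)]
  have Rg5 : (2 * ((⌊κ₄ * n⌋ : ℤ) + (⌊4 * κ' * n⌋ : ℤ)) : ℝ) + 12 < g * n := by
    linarith [fl (κ₄ * n), fl (4 * κ' * n)]
  have Rb4 : (2 * (⌊g / 8 * n⌋ : ℤ) : ℝ) + 4 < g * n := by linarith [fl (g / 8 * n)]
  have Rb5 : (2 * ((⌊g / 8 * n⌋ : ℤ) + (⌊4 * κ' * n⌋ : ℤ)) : ℝ) + 12 < g * n := by
    linarith [fl (g / 8 * n), fl (4 * κ' * n)]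
  have Rbb : ⌊4 * δ * n⌋ ≤ ⌊g / 8 * n⌋ := Int.floor_le_floor e14
  have hρ : 0 ≤ ⌊4 * κ' * n⌋ := Int.floor_nonneg.2 (by positivity)
  have hR3' : (⌊δ * (n : ℝ)⌋₊ : ℤ) + 4 ≤ ⌊κ₃ * n⌋ := by omega
  have hR3P : ((⌊κ₃ * n⌋ : ℤ) : ℝ) ≤ κ3 * n :=
    (fl _).trans (mul_le_mul_of_nonneg_right (hκ₃t.trans ht2) hn0.le)
  have arm3' := arm_two hN0 q3 arm3
  have arm4' := arm_two hN0 q4 arm4
  rw [hNdef] at arm1 arm2 arm3' arm4'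
  -- nonnegativity
  have ha : ∀ ω : Cfg, Good ω → Frz (frows θ β p Q n ⌊δ * (n : ℝ)⌋₊ bc) ω →
      0 ≤ TO θ (uI (frows θ β p Q n ⌊δ * (n : ℝ)⌋₊ bc))
          (rowC θ (frows θ β p Q n ⌊δ * (n : ℝ)⌋₊ bc) 0).ph (hB p Q n ⌊κ₃ * n⌋) ω :=
    fun ω hω hf => TO_nonneg hR3' fun ℓ h2 h3 => ((nL ω hω hf).1 ℓ h2 h3).1
  have s1 := low_tip h0 h1 hp hD hQ hb hgap hbg hδ dg hn hP hG hA hσ'f hA1 hM hN1 hMaj1
    (R₁ := ⌊s₁ * δ * n⌋) (R₂ := ⌊s₂ * δ * n⌋) (K₁ := ⌊κL * n⌋)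
    (fun ω hω hf N hc hm => (nL ω hω hf).2.2.1 _ N R1 hc hm) hm1 R1 r3 R2K Rg2 arm1
  have s2 := low_jun h0 h1 hp hD hQ hb hgap hbg hδ dg hn hP hG hA hσ'f hβ hA1 hM hCP hN2 hMaj2
    (R₃ := ⌊κ₃ * n⌋) (R₄ := ⌊κ₄ * n⌋) (K₁ := ⌊κL * n⌋) ha
    (fun ω hω hf N hc hm hne => (nL ω hω hf).2.2.2 _ Z N hR3' hc hZ hm hne) hm2
    (nP σ' hσ'f _ hR3' hR3P) hR3' r6 R4K Rg4 hρ Rg5 arm2
  have s3 := mix_TJ h0 h1 hp hD hQ hb hgap hbg hδ dg hn hP hG hA hC.le hσ'g hσ'f hρ Rbb Rb4 Rb5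
    arm4'.1 arm4'.2
  have s4 := mix_GT h0 h1 hp hD hQ hb hgap hbg hδ dg hn hP hG hA hC.le hσ'g hσ'f hβ ha R1 r3 R23
    r6 Rg4 arm3'.1 arm3'.2
  have p1 := H506.Q.EF_nonneg (P := P) (K := uI (frows θ β p Q n ⌊δ * (n : ℝ)⌋₊ bc)) (κ := σ')
    (Tjun_nonneg h0 h1 (frows θ β p Q n ⌊δ * (n : ℝ)⌋₊ bc) ⌊4 * κ' * n⌋)
  have p2 := H506.Q.EF_nonneg (P := P) (K := uI (frows θ β p Q n ⌊δ * (n : ℝ)⌋₊ bc)) (κ := σ')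
    (Ttip_nonneg h0 h1 (frows θ β p Q n ⌊δ * (n : ℝ)⌋₊ bc) ⌊δ * n / 16⌋)
  generalize EF P (uI (frows θ β p Q n ⌊δ * (n : ℝ)⌋₊ bc)) σ'
    (Tjun θ (frows θ β p Q n ⌊δ * (n : ℝ)⌋₊ bc) ⌊4 * κ' * n⌋) = xJ at s1 s2 s3 s4 p1 p2
  generalize EF P (uI (frows θ β p Q n ⌊δ * (n : ℝ)⌋₊ bc)) σ'
    (Ttip θ (frows θ β p Q n ⌊δ * (n : ℝ)⌋₊ bc) ⌊δ * n / 16⌋) = xT at s1 s2 s3 s4 p1 p2
  have u1 := mul_le_mul s2 s1 p2 (p1.trans s2)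
  calc _ ≤ 2 * (xJ * xT) := s3
    _ ≤ 2 * ((4 * M * CP ^ 2 * _) * (4 * M * _)) := mul_le_mul_of_nonneg_left u1 zero_le_two
    _ = 32 * M ^ 2 * CP ^ 2 * (_ * _) := by ring
    _ ≤ 32 * M ^ 2 * CP ^ 2 * (2 * _) := mul_le_mul_of_nonneg_left s4 (by positivity)
    _ = _ := by ring

end Vale.Agent.P167.H825.S
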