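import Vale.Agent.P167.H825.S.Geo
import Vale.Agent.P167.H945.Q.TLoc
import Vale.Agent.P167.H398.Q.TG

/-!
# P167, general `q`, block Q-START, H7S: locality of the factors of the tips and of the junctions
-/

namespace Vale.Agent.P167.H825.S

open Finset MeasureTheory
open Vale.Agent.P167.BR
open Vale.Agent.P167.FK
open Vale.Agent.P167.FKA (Loc Ind)
open Vale.Agent.P167.E6 (IsPolygon Encloses)
open Vale.Agent.P167.H825 (enl Marks dv)
open Vale.Agent.P167.H825.Q (Row Bc)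
open Vale.Agent.P167.H680.T (uI frows)
open Vale.Agent.P167.H662 (hsite)
open Vale.Agent.P167.H199 (Gap)
open Vale.Agent.P167.H945.Q (Plain ctr Tc Tc_loc Tc_nonneg)
open Vale.Agent.P167.H398.Q (hB Ttip Tjun Frz bcol)
open Vale.Agent.P167.H506.Q (EF fz)
open Vale.Agent.P167.Enl (BGap nm_tri nm_sub_comm mem_Bq' wc cl_box clS_frm frmQ uI_frows gn_big tB
  box_disj)

variable {l : ℕ} {θ β : ℝ} {p : ZMod l → ℤ × ℤ} {S₀ : Finset (ℤ × ℤ)} {Q : Marks} {bc : Bc}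
  {n d : ℕ}

theorem Bq_shift {c y : ℤ × ℤ} {ρ k : ℤ} (h : nm (c - y) ≤ k) : Bq c ρ ⊆ Bq y (k + ρ) := by
  intro v hv
  unfold nm at h
  rw [max_le_iff, abs_le, abs_le] at h
  simp only [Prod.fst_sub, Prod.snd_sub] at h
  unfold Bq at hv ⊢
  rw [mem_product, mem_Ico, mem_Ico] at hv ⊢
  omega

theorem Ttip_nonneg (h0 : 0 < θ) (h1 : θ ≤ Real.pi / 3) {ι : Type} [Fintype ι] (r : ι → Row)
    (ρ : ℤ) (ω : Cfg) : 0 ≤ Ttip θ r ρ ω :=
  prod_nonneg fun _ _ => mul_nonneg (Tc_nonneg h0 h1 _ _ _ _ _) (Tc_nonneg h0 h1 _ _ _ _ _)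

theorem Tjun_nonneg (h0 : 0 < θ) (h1 : θ ≤ Real.pi / 3) {ι : Type} [Fintype ι] (r : ι → Row)
    (ρ : ℤ) (ω : Cfg) : 0 ≤ Tjun θ r ρ ω :=
  prod_nonneg fun _ _ => Tc_nonneg h0 h1 _ _ _ _ _

/-- The colour of a mark. -/
theorem bcol_eq (x : Fin l × Fin (Q.m + 1)) : bcol p Q bc n x = wc l n Q bc x := rfl

open Classical in
/-- The squares on which the factors of the junctions depend. -/
theorem Tjun_loc {ι : Type} [Fintype ι] (r : ι → Row) (ρ : ℤ) :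
    Loc ((univ.filter fun x => ¬ Plain (r x)).biUnion fun x => Bq (ctr (r x) 2) ρ)
      (Tjun θ r ρ) := by
  intro ω ω' h
  unfold Tjun
  refine prod_congr rfl fun x _ => ?_
  by_cases hx : Plain (r x)
  · have e1 : ¬ ((2 : Fin 3) = 0) := by decide
    have e2 : ¬ ((2 : Fin 3) = 1) := by decide
    unfold Tc
    rw [if_neg e1, if_neg e2, if_pos hx, if_neg e1, if_neg e2, if_pos hx]
  · exact Tc_loc _ _ _ _ _ _ fun v hv => h v (mem_biUnion.2 ⟨x, mem_filter.2 ⟨mem_univ _, hx⟩, hv⟩)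

section near

variable (hp : IsPolygon p) (hD : Encloses p S₀) (hQ : Q.Ok) {g δ : ℝ} (hg : Gap Q l g)
  (hδ : 0 < δ) (hδg : 4 * δ ≤ g) (hn : 16 ≤ δ * n)

include hp hQ hg hδ hδg hn in
/-- **The factors of the tips depend on the boxes of the holes.** -/
theorem Ttip_loc {R ρ : ℤ} (hR : (⌊δ * n⌋₊ : ℤ) + 5 + ρ ≤ R) :
    Loc (hB p Q n R) (Ttip θ (frows θ β p Q n ⌊δ * n⌋₊ bc) ρ) := by
  intro ω ω' h
  have key : ∀ (x : Fin l × Fin (Q.m + 1)) (i : Fin 3), i = 0 ∨ i = 1 →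
      Tc θ (uI (frows θ β p Q n ⌊δ * n⌋₊ bc)) (frows θ β p Q n ⌊δ * n⌋₊ bc x) i ρ ω =
      Tc θ (uI (frows θ β p Q n ⌊δ * n⌋₊ bc)) (frows θ β p Q n ⌊δ * n⌋₊ bc x) i ρ ω' := by
    intro x i hi
    obtain ⟨y, hy⟩ := tip_near (θ := θ) (β := β) (bc := bc) hp hQ hg hδ hδg hn x hi
    refine Tc_loc _ _ _ _ _ _ fun v hv => h v ?_
    exact Enl.mem_hB.2 ⟨y, H398.Q.Bq_mono' hR (Bq_shift hy hv)⟩
  unfold Ttip
  exact prod_congr rfl fun x _ => by rw [key x 0 (Or.inl rfl), key x 1 (Or.inr rfl)]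

include hp hQ hg hδ hδg hn in
/-- **The factors of the junctions do not read the boxes of the holes.** -/
theorem Tjun_ind (hbg : BGap l Q g bc) {R ρ : ℤ} (h0 : 0 ≤ R + ρ)
    (hR : (2 * (R + ρ) : ℝ) + 12 < g * n) :
    Ind (hB p Q n R) (Tjun θ (frows θ β p Q n ⌊δ * n⌋₊ bc) ρ) := by
  classical
  refine Loc.ind ?_ (Tjun_loc _ _)
  rw [Finset.disjoint_left]
  intro v hv hv'
  obtain ⟨x, hx, h1⟩ := mem_biUnion.1 hv
  obtain ⟨y, h2⟩ := Enl.mem_hB.1 hv'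
  have h3 := jun_far (θ := θ) (β := β) hp hQ hg hδ hδg hn hbg x (mem_filter.1 hx).2 h0
    (by push_cast; linarith) y
  have h4 := mem_Bq' h1
  have h5 := mem_Bq' h2
  have h6 := nm_tri (ctr (frows θ β p Q n ⌊δ * n⌋₊ bc x) 2) v (hsite p Q n y)
  rw [nm_sub_comm (ctr (frows θ β p Q n ⌊δ * n⌋₊ bc x) 2) v] at h6
  omega

include hp hD hQ hg hδ hδg hn in
/-- **The frozen squares have one colour near a mark.** -/
theorem frz_box (hb : bc.Ok l Q) (hbg : BGap l Q g bc) {σ : Cfg}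
    (hσ : Frz (frows θ β p Q n ⌊δ * n⌋₊ bc) σ) {R : ℤ} (hR : (2 * R : ℝ) + 4 < g * n)
    (hR4 : (⌊δ * n⌋₊ : ℤ) + 4 ≤ R) (x : Fin l × Fin (Q.m + 1)) {v : ℤ × ℤ}
    (hv : v ∈ uI (frows θ β p Q n ⌊δ * n⌋₊ bc)) (hx : v ∈ Bq (hsite p Q n x) R) :
    σ v = bcol p Q bc n x := by
  rw [uI_frows] at hv
  have h := cl_box hp hD hQ hg hδ hδg hn hσ hb hbg hR x (mem_union_left _ hv) hx hR4
  rw [clS_frm hv] at h
  exact h

end near

/-! ### the functional of the domain without flow -/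

theorem XBoff_zero (hs : Real.sin θ ≠ 0) (hc : Real.cos θ ≠ 0)
    (hβ : Real.cos (θ / 2 + β) = Real.sin θ) {N : ℕ} (q : ZMod N → ℤ × ℤ) (D : Finset (ℤ × ℤ))
    (k : ℕ) (B : Set (ℤ × ℤ)) (ω : Cfg) : QX.XBoff θ β q D k (dv 0) B ω = 1 := by
  unfold QX.XBoff
  refine prod_eq_one fun A _ => ?_
  have h0 : (dv (0 : Ed → ℝ)) = 0 := by
    funext z
    unfold dv
    simp
  have : mass D (q 0) (dv 0) A = 0 := by
    rw [h0]
    unfold mass
    simp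
  rw [this, QX.wB_zero hs hc hβ]

theorem gauge_cos (hβ : β = (θ - Real.pi) / 2 ∨ β = (Real.pi - 3 * θ) / 2) :
    Real.cos (θ / 2 + β) = Real.sin θ := by
  rcases hβ with rfl | rfl
  · rw [show θ / 2 + (θ - Real.pi) / 2 = θ - Real.pi / 2 by ring, Real.cos_sub_pi_div_two]
  · rw [show θ / 2 + (Real.pi - 3 * θ) / 2 = Real.pi / 2 - θ by ring, Real.cos_pi_div_two_sub]

/-! ### expectations given the frozen squares -/

variable {P : Measure Cfg} {K : Finset (ℤ × ℤ)} {κ κ' : Cfg}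

theorem fz_eq (h : ∀ v ∈ K, κ v = κ' v) : fz K κ = fz K κ' := by
  have : {ω : Cfg | ∀ v ∈ K, ω v = κ v} = {ω : Cfg | ∀ v ∈ K, ω v = κ' v} := by
    ext ω
    exact forall₂_congr fun v hv => by rw [h v hv]
  unfold fz
  rw [this]

/-- The expectations depend on the frozen states only. -/
theorem EF_eq (h : ∀ v ∈ K, κ v = κ' v) (F : Cfg → ℝ) : EF P K κ F = EF P K κ' F := by
  unfold EF
  rw [fz_eq h]

end Vale.Agent.P167.H825.S
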