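import Vale.Agent.P167.H592.U.FrB
import Vale.Agent.P167.H871.Q.LF0F
import Vale.Agent.P167.H398.Q.SDefs
import Vale.Agent.P167.H825.S.Loc

/-!
# P167, general `q`, block Q-START: the assembly of `L2S`

`FrameC`, `FrameD`, `FrameE`: the parts (c), (d), (e) of `L2S` at a fixed scale, with the gaps. The
parts (a), (b) are theorems (`frame_fLp_nonneg`, `frame_b`).
-/

set_option autoImplicit false

namespace Vale.Agent.P167.H825.S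

open Finset Filter
open Vale.Agent.P167.FK
open Vale.Agent.P167.E6 (IsPolygon Encloses)
open Vale.Agent.P167.XDL (bS)
open Vale.Agent.P167.H825 (enl Marks)
open Vale.Agent.P167.H825.Q (Row Bc)
open Vale.Agent.P167.H680.T (rowC uI frows)
open Vale.Agent.P167.H662 (hsite)
open Vale.Agent.P167.H685 (LE)
open Vale.Agent.P167.H199 (Gap exists_Gap)
open Vale.Agent.P167.H562.QM (MajA)
open Vale.Agent.P167.QX (TB TO fLp VisL)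
open Vale.Agent.P167.H398.Q (hB Ttip Tjun Frz Cnf L2S)
open Vale.Agent.P167.Enl (BGap exists_BGap R0)

/-- **(c)** The product over the loops off the holes does not depend on the squares of the domain. -/
def FrameC (θ β : ℝ) : Prop :=
  ∀ (l : ℕ) [NeZero l] (p : ZMod l → ℤ × ℤ) (S₀ : Finset (ℤ × ℤ)), IsPolygon p → Encloses p S₀ →
  ∀ Q : Marks, Q.Ok → ∀ bc : Bc, bc.Ok l Q → ∀ g : ℝ, Gap Q l g → BGap l Q g bc →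
  ∀ δ : ℝ, 0 < δ → 32 * δ ≤ g → ∀ n : ℕ, 16 ≤ δ * n → ∀ (R₃ R' : ℤ),
  (⌊δ * (n : ℝ)⌋₊ + 4 : ℤ) ≤ R₃ → (2 * R' : ℝ) + 8 < g * n → ∀ ω ω' : Cfg, Good ω → Good ω' →
  Frz (frows θ β p Q n ⌊δ * (n : ℝ)⌋₊ bc) ω → Frz (frows θ β p Q n ⌊δ * (n : ℝ)⌋₊ bc) ω' →
  Cnf p Q n R₃ R' ω → Cnf p Q n R₃ R' ω' → (∀ v ∉ enl S₀ n, v ∉ hB p Q n R₃ → ω v = ω' v) →
    TO θ (uI (frows θ β p Q n ⌊δ * (n : ℝ)⌋₊ bc))
        (rowC θ (frows θ β p Q n ⌊δ * (n : ℝ)⌋₊ bc) 0).ph (hB p Q n R₃) ω =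
      TO θ (uI (frows θ β p Q n ⌊δ * (n : ℝ)⌋₊ bc))
        (rowC θ (frows θ β p Q n ⌊δ * (n : ℝ)⌋₊ bc) 0).ph (hB p Q n R₃) ω'

/-- **(d)** Lower bound, loops at the holes. -/
def FrameD (θ β : ℝ) : Prop :=
  ∀ (l : ℕ) [NeZero l] (p : ZMod l → ℤ × ℤ) (S₀ : Finset (ℤ × ℤ)), IsPolygon p → Encloses p S₀ →
  ∀ Q : Marks, Q.Ok → ∀ bc : Bc, bc.Ok l Q → ∀ g : ℝ, Gap Q l g → BGap l Q g bc →
  ∃ A δ₁ n₁ : ℝ, 1 ≤ A ∧ 0 < δ₁ ∧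
  ∀ δ : ℝ, 0 < δ → δ < δ₁ → ∀ n : ℕ, 16 ≤ δ * n → n₁ ≤ δ * n → ∀ (R₁ R' : ℤ) (N₁ : ℕ),
  ⌊4 * δ * n⌋ ≤ R₁ → (2 * R' : ℝ) + 8 < g * n → ∀ ω : Cfg, Good ω →
  Frz (frows θ β p Q n ⌊δ * (n : ℝ)⌋₊ bc) ω → Cnf p Q n R₁ R' ω →
  MajA (hB p Q n ⌊4 * δ * n⌋) (δ * n / 64) ω N₁ →
    Ttip θ (frows θ β p Q n ⌊δ * (n : ℝ)⌋₊ bc) ⌊δ * n / 16⌋ ω ≤
      A ^ (N₁ + 1) * TB θ (uI (frows θ β p Q n ⌊δ * (n : ℝ)⌋₊ bc))
        (rowC θ (frows θ β p Q n ⌊δ * (n : ℝ)⌋₊ bc) 0).ph (hB p Q n R₁) ω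

/-- **(e)** Lower bound, loops off the holes. -/
def FrameE (θ β : ℝ) : Prop :=
  ∀ (l : ℕ) [NeZero l] (p : ZMod l → ℤ × ℤ) (S₀ : Finset (ℤ × ℤ)), IsPolygon p → Encloses p S₀ →
  ∀ Q : Marks, Q.Ok → ∀ bc : Bc, bc.Ok l Q → ∀ g : ℝ, Gap Q l g → BGap l Q g bc →
  ∃ A : ℝ, 1 ≤ A ∧
  ∀ δ : ℝ, 0 < δ → 32 * δ ≤ g → ∀ n : ℕ, 16 ≤ δ * n → ∀ (R₃ R' ρ : ℤ),
  (⌊δ * (n : ℝ)⌋₊ + 4 : ℤ) ≤ R₃ → (2 * R' : ℝ) + 8 < g * n → 2 ≤ ρ → (4 * ρ : ℝ) + 8 ≤ g * n →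
  (2 * ρ : ℝ) + 2 * (δ * n) + 20 < g * n → ∀ ω : Cfg, Good ω →
  Frz (frows θ β p Q n ⌊δ * (n : ℝ)⌋₊ bc) ω → Cnf p Q n R₃ R' ω →
    TO θ (uI (frows θ β p Q n ⌊δ * (n : ℝ)⌋₊ bc))
        (rowC θ (frows θ β p Q n ⌊δ * (n : ℝ)⌋₊ bc) 0).ph (hB p Q n R₃) ω ≠ 0 →
    Tjun θ (frows θ β p Q n ⌊δ * (n : ℝ)⌋₊ bc) ρ ω ≤
      A * TO θ (uI (frows θ β p Q n ⌊δ * (n : ℝ)⌋₊ bc))
        (rowC θ (frows θ β p Q n ⌊δ * (n : ℝ)⌋₊ bc) 0).ph (hB p Q n R₃) ω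

variable {θ β : ℝ}

/-- **(L2S)** from its parts (c), (d), (e). -/
theorem l2s_of (h0 : 0 < θ) (h1 : θ ≤ Real.pi / 3)
    (hβ : β = (θ - Real.pi) / 2 ∨ β = (Real.pi - 3 * θ) / 2) (hC : FrameC θ β)
    (hDd : FrameD θ β) (hE : FrameE θ β) : L2S θ β := by
  intro l _ p S₀ hp hD Q hQ bc hb
  obtain ⟨g1, hg1, hgap1⟩ := exists_Gap hQ l
  obtain ⟨g2, hg2, hbg2⟩ := exists_BGap hb
  obtain ⟨g, hg0, hgap, hbg⟩ : ∃ g : ℝ, 0 < g ∧ Gap Q l g ∧ BGap l Q g bc :=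
    ⟨min g1 g2, lt_min hg1 hg2,
      ⟨fun i hi j hj => by linarith [hgap1.1 i hi j hj, min_le_left g1 g2],
        fun j hj => (min_le_left _ _).trans (hgap1.2 j hj)⟩, hbg2.mono (min_le_right _ _)⟩
  obtain ⟨A₁, δ₁, n₁, hA₁, hδ₁, hd⟩ := hDd l p S₀ hp hD Q hQ bc hb g hgap hbg
  obtain ⟨A₂, hA₂, he⟩ := hE l p S₀ hp hD Q hQ bc hb g hgap hbg
  refine ⟨g / 32, by positivity, fun κ' hκ' hκ'1 => ?_⟩
  refine ⟨max A₁ A₂, min δ₁ (g / 32), hA₁.trans (le_max_left _ _), by positivity, ?_⟩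
  intro δ hδ hδ'
  simp only [lt_min_iff] at hδ'
  obtain ⟨d1, d2⟩ := hδ'
  have dg : 32 * δ ≤ g := by linarith
  filter_upwards [eventually_ge_atTop ⌈16 / δ⌉₊, eventually_ge_atTop ⌈n₁ / δ⌉₊,
    eventually_ge_atTop ⌈2 / κ'⌉₊] with n nn nn1 nn2
  have hn : 16 ≤ δ * n := by
    have h1 : 16 / δ ≤ n := (Nat.le_ceil _).trans (by exact_mod_cast nn)
    rw [div_le_iff₀ hδ] at h1
    linarith
  have hn1 : n₁ ≤ δ * n := by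
    have h1 : n₁ / δ ≤ n := (Nat.le_ceil _).trans (by exact_mod_cast nn1)
    rw [div_le_iff₀ hδ] at h1
    linarith
  have hn2 : 2 ≤ κ' * n := by
    have h1 : 2 / κ' ≤ n := (Nat.le_ceil _).trans (by exact_mod_cast nn2)
    rw [div_le_iff₀ hκ'] at h1
    linarith
  have hn0 : (0 : ℝ) < n := by
    by_contra h
    push Not at h
    linarith [mul_nonpos_of_nonneg_of_nonpos hδ.le h]
  have e1 : 32 * (δ * n) ≤ g * n := by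
    rw [← mul_assoc]
    exact mul_le_mul_of_nonneg_right dg hn0.le
  have e2 : 32 * (κ' * n) ≤ g * n := by
    rw [← mul_assoc]
    exact mul_le_mul_of_nonneg_right (by linarith) hn0.le
  have hR' : (2 * (⌊g / 32 * n⌋ : ℤ) : ℝ) + 8 < g * n := by
    linarith [Int.floor_le (g / 32 * n)]
  have f1 : (⌊4 * κ' * n⌋ : ℝ) ≤ 4 * κ' * n := Int.floor_le _
  have hρ2 : 2 ≤ ⌊4 * κ' * n⌋ := Int.le_floor.2 (by push_cast; linarith)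
  intro ω hω hf
  refine ⟨fun ℓ hℓ hv => ⟨?_, ?_⟩, ?_, ?_, ?_⟩
  · exact H871.Q.frame_fLp_nonneg h0 h1 hβ hp hD hQ hgap hδ (by linarith) hn hb le_rfl hω
      (H685.mem_LE.1 hℓ).1 hv
  · rintro ⟨x, hx⟩
    exact Enl.frame_b hp hD hQ hgap hδ (by linarith) hn hb hbg h0 h1 le_rfl hω hf hℓ hv hR' x hx
  · intro R₃ ω' h3 hω' hf' hc hc' hoff
    exact hC l p S₀ hp hD Q hQ bc hb g hgap hbg δ hδ dg n hn R₃ _ h3 hR' ω ω' hω hω' hf hf' hc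
      hc' hoff
  · intro R₁ N₁ hR₁ hc hm
    have h2 := hd δ hδ d1 n hn hn1 R₁ _ N₁ hR₁ hR' ω hω hf hc hm
    refine h2.trans ?_
    have h3 : 0 ≤ TB θ (uI (frows θ β p Q n ⌊δ * (n : ℝ)⌋₊ bc))
        (rowC θ (frows θ β p Q n ⌊δ * (n : ℝ)⌋₊ bc) 0).ph (hB p Q n R₁) ω :=
      (mul_nonneg_iff_of_pos_left (pow_pos (by linarith) _)).1
        ((Ttip_nonneg h0 h1 _ _ _).trans h2)
    exact mul_le_mul_of_nonneg_right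
      (pow_le_pow_left₀ (by linarith) (le_max_left _ _) _) h3
  · intro R₃ Z N₂ h3 hc _ _ hne
    have h2 := he δ hδ dg n hn R₃ _ _ h3 hR' hρ2 (by linarith) (by linarith) ω hω hf hc hne
    refine h2.trans ?_
    have h4 : 0 ≤ TO θ (uI (frows θ β p Q n ⌊δ * (n : ℝ)⌋₊ bc))
        (rowC θ (frows θ β p Q n ⌊δ * (n : ℝ)⌋₊ bc) 0).ph (hB p Q n R₃) ω :=
      (mul_nonneg_iff_of_pos_left (by linarith)).1 ((Tjun_nonneg h0 h1 _ _ _).trans h2)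
    refine mul_le_mul_of_nonneg_right ?_ h4
    calc A₂ ≤ max A₁ A₂ := le_max_right _ _
      _ ≤ _ := le_self_pow₀ (hA₁.trans (le_max_left _ _)) (by omega)

end Vale.Agent.P167.H825.S
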