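import Vale.Agent.P167.H592.S.Close
import Vale.Agent.P167.H945.Q.HDefs

/-!
# P167, general `q`, block Q-START, H7S: the centres of the rows of a frame

The tips are near the marks, the junctions and base points are far from the marks.
-/

namespace Vale.Agent.P167.H825.S

open Finset
open Vale.Agent.P167.Top
open Vale.Agent.P167.FK (Bq Good)
open Vale.Agent.P167.E6 (IsPolygon Encloses dir face)
open Vale.Agent.P167.H825 (enl pdir Marks FlowIn bsite)
open Vale.Agent.P167.H825.Q (Row Bc frow stτ stΦ stτ_or osq srow srow_sq srow_L)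
open Vale.Agent.P167.H680.T (uI frows mem_uI)
open Vale.Agent.P167.H662 (hsite)
open Vale.Agent.P167.H199 (Gap)
open Vale.Agent.P167.H945.Q (Plain ctr)
open Vale.Agent.P167.Enl

variable {l : ℕ} {θ β : ℝ} {p : ZMod l → ℤ × ℤ} {S₀ : Finset (ℤ × ℤ)} {Q : Marks} {bc : Bc}
  {n d : ℕ}

/-! ### the centres of a row along a side -/

theorem srow_0 (z : ℤ × ℤ) (r : Fin 4) {s e jp : ℕ} (F T : ℕ → ℝ) (h : s < e) :
    ctr (srow z r s e jp F T) 0 = osq z r s ∨ ctr (srow z r s e jp F T) 0 = osq z r (e - 1) := by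
  have key : ∀ σ, s ≤ σ → σ < e → idx r s e σ = 0 →
      ctr (srow z r s e jp F T) 0 = osq z r σ := by
    intro σ h1 h2 h3
    rw [← srow_sq z r F T h1 h2, h3]
    rfl
  rcases fin4_cases r with rfl | rfl | rfl | rfl
  · exact Or.inl (key s le_rfl h (by unfold idx; simp))
  · exact Or.inl (key s le_rfl h (by unfold idx; simp))
  · exact Or.inr (key (e - 1) (by omega) (by omega) (by unfold idx; simp))
  · exact Or.inr (key (e - 1) (by omega) (by omega) (by unfold idx; simp))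

theorem srow_1 (z : ℤ × ℤ) (r : Fin 4) {s e jp : ℕ} (F T : ℕ → ℝ) (h : s < e) :
    ctr (srow z r s e jp F T) 1 = osq z r s ∨ ctr (srow z r s e jp F T) 1 = osq z r (e - 1) := by
  have key : ∀ σ, s ≤ σ → σ < e → idx r s e σ = e - s - 1 →
      ctr (srow z r s e jp F T) 1 = osq z r σ := by
    intro σ h1 h2 h3
    rw [← srow_sq z r F T h1 h2, h3]
    show (srow z r s e jp F T).sq ((srow z r s e jp F T).L - 1) = _
    rw [srow_L]
  rcases fin4_cases r with rfl | rfl | rfl | rfl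
  · exact Or.inr (key (e - 1) (by omega) (by omega) (by unfold idx; simp; omega))
  · exact Or.inr (key (e - 1) (by omega) (by omega) (by unfold idx; simp; omega))
  · exact Or.inl (key s le_rfl h (by unfold idx; simp; omega))
  · exact Or.inl (key s le_rfl h (by unfold idx; simp; omega))

theorem srow_2 (z : ℤ × ℤ) (r : Fin 4) {s e jp : ℕ} (F T : ℕ → ℝ) (h : s < jp) (h' : jp < e) :
    ctr (srow z r s e jp F T) 2 = osq z r jp ∨
      ctr (srow z r s e jp F T) 2 = osq z r (jp - 1) := by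
  have key : ∀ σ, s ≤ σ → σ < e → idx r s e σ = (srow z r s e jp F T).k0 →
      ctr (srow z r s e jp F T) 2 = osq z r σ := by
    intro σ h1 h2 h3
    rw [← srow_sq z r F T h1 h2, h3]
    rfl
  rcases fin4_cases r with rfl | rfl | rfl | rfl
  · exact Or.inl (key jp h.le h' rfl)
  · exact Or.inl (key jp h.le h' rfl)
  · refine Or.inr (key (jp - 1) (by omega) (by omega) ?_)
    show e - 1 - (jp - 1) = e - jp
    omega
  · refine Or.inr (key (jp - 1) (by omega) (by omega) ?_)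
    show e - 1 - (jp - 1) = e - jp
    omega

/-- A row with the same data at both ends is plain. -/
theorem plain_of (z : ℤ × ℤ) (r : Fin 4) {s e jp : ℕ} {F T : ℕ → ℝ}
    (hT : ∀ σ, T σ = 1 ∨ T σ = -1) (h : F s = F (e - 1)) (h' : T s = T (e - 1)) :
    Plain (srow z r s e jp F T) := by
  have sq : T s * T (e - 1) = 1 := by
    rw [← h']
    rcases hT s with h | h <;> rw [h] <;> norm_num
  rcases fin4_cases r with rfl | rfl | rfl | rfl
  · exact ⟨by show F (e - 1) - F s = 0; rw [h, sub_self], sq⟩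
  · exact ⟨by show F (e - 1) - F s = 0; rw [h, sub_self], sq⟩
  · exact ⟨by show F s - F (e - 1) = 0; rw [h, sub_self], sq⟩
  · exact ⟨by show F s - F (e - 1) = 0; rw [h, sub_self], sq⟩

/-- A row of the frame which is not plain contains the base point or the junction. -/
theorem plain_row {i j : ℕ} (hi : i < l) (ht : tB n Q < n) (hs : sW p n Q d i j < n)
    (he : eW p n Q d i j - 1 < n)
    (h1 : tB n Q ≤ i * n + sW p n Q d i j ↔ tB n Q ≤ i * n + (eW p n Q d i j - 1))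
    (h2 : kOf l n (tB n Q) i (sW p n Q d i j) < bc.ka l n (tB n Q) ↔
      kOf l n (tB n Q) i (eW p n Q d i j - 1) < bc.ka l n (tB n Q)) :
    Plain (frow θ β p Q n d bc i j) := by
  have h3 : uN p n (tB n Q) (kOf l n (tB n Q) i (sW p n Q d i j)) =
      uN p n (tB n Q) (kOf l n (tB n Q) i (eW p n Q d i j - 1)) := by
    rw [uN_kOf hi ht hs, uN_kOf hi ht he]
    by_cases h : tB n Q ≤ i * n + sW p n Q d i j
    · rw [if_pos h, if_pos (h1.1 h)]
    · rw [if_neg h, if_neg fun h' => h (h1.2 h')]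
  unfold frow
  refine plain_of _ _ (fun σ => stτ_or _ _) ?_ ?_
  · by_cases h : kOf l n (tB n Q) i (sW p n Q d i j) < bc.ka l n (tB n Q)
    · show stΦ θ β _ _ _ = stΦ θ β _ _ _
      rw [(stΦ_eq h).1, (stΦ_eq (h2.1 h)).1, h3]
    · show stΦ θ β _ _ _ = stΦ θ β _ _ _
      rw [(stΦ_eq' h).1, (stΦ_eq' fun h' => h (h2.2 h')).1, h3]
  · show stτ _ _ = stτ _ _
    unfold stτ
    by_cases h : kOf l n (tB n Q) i (sW p n Q d i j) < bc.ka l n (tB n Q)
    · rw [if_pos h, if_pos (h2.1 h)]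
    · rw [if_neg h, if_neg fun h' => h (h2.2 h')]

/-- Steps of the other sides and of the same side far from a mark. -/
theorem far_mark (hp : IsPolygon p) (hQ : Q.Ok) {g : ℝ} (hg : Gap Q l g) {m : ℤ}
    (hm : (2 * m : ℝ) + 2 < g * n) {i σ : ℕ} (hi : i < l) (hσ : σ < n)
    (h : ∀ j ≤ Q.m + 1, m < |(σ : ℤ) - ⌊Q.θ i j * n⌋₊|) (y : Fin l × Fin (Q.m + 1)) :
    m < nm (vp p n i σ - hsite p Q n y) := by
  by_contra hcon
  push Not at hcon
  rcases window hp hQ hg hm hi hσ hcon with ⟨h1, h2⟩ | ⟨h1, h2, h3⟩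
  · have := h y.2 (by omega)
    rw [h1] at this
    omega
  · have := h (Q.m + 1) le_rfl
    rw [fl_one hQ, abs_sub_comm, abs_of_nonneg (by omega)] at this
    omega

section near

variable (hp : IsPolygon p) (hQ : Q.Ok) {g δ : ℝ} (hg : Gap Q l g)
  (hδ : 0 < δ) (hδg : 4 * δ ≤ g) (hn : 16 ≤ δ * n)

include hp hQ hg hδ hδg hn in
/-- **The tips are near the marks.** -/
theorem tip_near (x : Fin l × Fin (Q.m + 1)) {i : Fin 3} (hi : i = 0 ∨ i = 1) :
    ∃ y : Fin l × Fin (Q.m + 1),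
      nm (ctr (frows θ β p Q n ⌊δ * n⌋₊ bc x) i - hsite p Q n y) ≤ (⌊δ * n⌋₊ : ℤ) + 5 := by
  have hj : (x.2 : ℕ) ≤ Q.m := Nat.lt_succ_iff.1 x.2.isLt
  have h := rb_of (p := p) hQ hg hδ hδg hn x.1.isLt hj
  have hfl := Nat.lt_floor_add_one (δ * n)
  have hn0 : (0 : ℝ) ≤ n := Nat.cast_nonneg n
  obtain ⟨f1, f2, -⟩ := fl hQ n x.1 (show (x.2 : ℕ) ≤ Q.m + 1 by omega)
  obtain ⟨g1, g2, -⟩ := fl hQ n x.1 (show (x.2 : ℕ) + 1 ≤ Q.m + 1 by omega)
  have hop : ∀ σ : ℕ, osq ((n : ℤ) • p ((x.1 : ℕ) : ZMod l)) (pdir p x.1) σ = Enl.op p n x.1 σ :=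
    fun σ => rfl
  have hcs : ctr (frows θ β p Q n ⌊δ * n⌋₊ bc x) i = Enl.op p n x.1 (sW p n Q ⌊δ * n⌋₊ x.1 x.2) ∨
      ctr (frows θ β p Q n ⌊δ * n⌋₊ bc x) i =
        Enl.op p n x.1 ((eW p n Q ⌊δ * n⌋₊ x.1 x.2 - 1 : ℕ) : ℤ) := by
    rcases hi with rfl | rfl
    · exact srow_0 _ _ _ _ h.se
    · exact srow_1 _ _ _ _ h.se
  rcases hcs with hc | hc
  · refine ⟨x, ?_⟩
    have a1 := op_near (p := p) (n := n) x.1 (sW p n Q ⌊δ * n⌋₊ x.1 x.2)
    have a2 : nm (vp p n x.1 (sW p n Q ⌊δ * n⌋₊ x.1 x.2) - hsite p Q n x) ≤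
        (⌊δ * n⌋₊ : ℤ) + 3 := by
      have e5 : hsite p Q n x = vp p n x.1 (⌊Q.θ x.1 x.2 * n⌋₊ : ℤ) := rfl
      rw [e5, vp_same, abs_of_nonneg (by have := h.s3; omega)]
      have s2 := h.s2
      have : (sW p n Q ⌊δ * n⌋₊ x.1 x.2 : ℝ) < ⌊Q.θ x.1 x.2 * n⌋₊ + (⌊δ * n⌋₊ + 3) := by
        nlinarith
      have h7 : sW p n Q ⌊δ * n⌋₊ x.1 x.2 < ⌊Q.θ x.1 x.2 * n⌋₊ + (⌊δ * n⌋₊ + 3) := by
        exact_mod_cast this
      omega
    have a3 := nm_tri (Enl.op p n x.1 (sW p n Q ⌊δ * n⌋₊ x.1 x.2))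
      (vp p n x.1 (sW p n Q ⌊δ * n⌋₊ x.1 x.2)) (hsite p Q n x)
    rw [hc]
    omega
  · obtain ⟨z, hz⟩ := next_mark (n := n) hp hQ x.1.isLt hj
    refine ⟨z, ?_⟩
    have a1 := op_near (p := p) (n := n) x.1 ((eW p n Q ⌊δ * n⌋₊ x.1 x.2 - 1 : ℕ) : ℤ)
    have a2 : nm (vp p n x.1 ((eW p n Q ⌊δ * n⌋₊ x.1 x.2 - 1 : ℕ) : ℤ) - hsite p Q n z) ≤
        (⌊δ * n⌋₊ : ℤ) + 4 := by
      have e3 := h.e3
      have e4 := h.se
      rw [hz, vp_same, abs_sub_comm, abs_of_nonneg (by omega)]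
      have e1 := h.e1
      have : ((⌊Q.θ x.1 (x.2 + 1) * n⌋₊ : ℕ) : ℝ) <
          eW p n Q ⌊δ * n⌋₊ x.1 x.2 + (⌊δ * n⌋₊ + 3) := by
        nlinarith
      have h7 : ⌊Q.θ x.1 (x.2 + 1) * n⌋₊ < eW p n Q ⌊δ * n⌋₊ x.1 x.2 + (⌊δ * n⌋₊ + 3) := by
        exact_mod_cast this
      omega
    have a3 := nm_tri (Enl.op p n x.1 ((eW p n Q ⌊δ * n⌋₊ x.1 x.2 - 1 : ℕ) : ℤ))
      (vp p n x.1 ((eW p n Q ⌊δ * n⌋₊ x.1 x.2 - 1 : ℕ) : ℤ)) (hsite p Q n z)
    rw [hc]
    omega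

include hp hQ hg hδ hδg hn in
/-- **The junctions and the base point are far from the marks.** -/
theorem jun_far (hbg : BGap l Q g bc) (x : Fin l × Fin (Q.m + 1))
    (hx : ¬ Plain (frows θ β p Q n ⌊δ * n⌋₊ bc x)) {m : ℤ} (hm0 : 0 ≤ m)
    (hm : (2 * m : ℝ) + 12 < g * n) (y : Fin l × Fin (Q.m + 1)) :
    m < nm (ctr (frows θ β p Q n ⌊δ * n⌋₊ bc x) 2 - hsite p Q n y) := by
  have hj : (x.2 : ℕ) ≤ Q.m := Nat.lt_succ_iff.1 x.2.isLt
  have h := rb_of (p := p) hQ hg hδ hδg hn x.1.isLt hj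
  have hn0 : (0 : ℝ) ≤ n := Nat.cast_nonneg n
  have hmR : (0 : ℝ) ≤ m := by exact_mod_cast hm0
  have hse := h.se
  have hsn := h.sn
  have hen := h.en
  have ht := h.ht
  have s3 := h.s3
  have e3 := h.e3
  -- the conclusion from the position of the special point
  have fin : ∀ jp : ℕ, (if (x.1 : ℕ) = 0 then tB n Q else bc.tn n) = jp →
      sW p n Q ⌊δ * n⌋₊ x.1 x.2 < jp → jp < eW p n Q ⌊δ * n⌋₊ x.1 x.2 →
      (∀ j ≤ Q.m + 1, m + 2 < |(jp : ℤ) - ⌊Q.θ x.1 j * n⌋₊|) →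
      m < nm (ctr (frows θ β p Q n ⌊δ * n⌋₊ bc x) 2 - hsite p Q n y) := by
    intro jp hjp h1 h2 h3
    have key : ∀ σ : ℕ, σ < n → (σ = jp ∨ σ = jp - 1) →
        ctr (frows θ β p Q n ⌊δ * n⌋₊ bc x) 2 = Enl.op p n x.1 σ →
        m < nm (ctr (frows θ β p Q n ⌊δ * n⌋₊ bc x) 2 - hsite p Q n y) := by
      intro σ hσ hσ' hc
      have a0 := far_mark (m := m + 1) hp hQ hg (by push_cast; linarith) x.1.isLt hσ
        (fun j hj => by
          have := h3 j hj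
          rw [lt_abs] at this ⊢
          omega) y
      have a1 := op_near (p := p) (n := n) x.1 σ
      have a2 := nm_tri (vp p n x.1 σ) (Enl.op p n x.1 σ) (hsite p Q n y)
      rw [nm_sub_comm (vp p n x.1 σ) (Enl.op p n x.1 σ)] at a2
      rw [hc]
      omega
    have hcs : ctr (frows θ β p Q n ⌊δ * n⌋₊ bc x) 2 = Enl.op p n x.1 jp ∨
        ctr (frows θ β p Q n ⌊δ * n⌋₊ bc x) 2 = Enl.op p n x.1 ((jp - 1 : ℕ) : ℤ) := by
      unfold frows frow
      rw [hjp]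
      exact srow_2 _ _ _ _ h1 h2
    rcases hcs with hc | hc
    · exact key jp (by omega) (Or.inl rfl) hc
    · exact key (jp - 1) (by omega) (Or.inr rfl) hc
  -- one of the two comparisons differs at the ends
  have hnp : ¬ ((tB n Q ≤ x.1 * n + sW p n Q ⌊δ * n⌋₊ x.1 x.2 ↔
      tB n Q ≤ x.1 * n + (eW p n Q ⌊δ * n⌋₊ x.1 x.2 - 1)) ∧
      (kOf l n (tB n Q) x.1 (sW p n Q ⌊δ * n⌋₊ x.1 x.2) < bc.ka l n (tB n Q) ↔
      kOf l n (tB n Q) x.1 (eW p n Q ⌊δ * n⌋₊ x.1 x.2 - 1) < bc.ka l n (tB n Q))) := fun hc =>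
    hx (plain_row x.1.isLt ht hsn hen hc.1 hc.2)
  rcases Nat.eq_zero_or_pos (x.1 : ℕ) with h0 | h0
  · -- the side of the base point
    have h00 : (x.1 : ℕ) * n = 0 := by rw [h0, Nat.zero_mul]
    have hb : ¬ (tB n Q ≤ x.1 * n + sW p n Q ⌊δ * n⌋₊ x.1 x.2 ↔
        tB n Q ≤ x.1 * n + (eW p n Q ⌊δ * n⌋₊ x.1 x.2 - 1)) := by
      intro hb
      refine hnp ⟨hb, ka_same x.1.isLt ht hsn hen fun ia ta hbc => ?_⟩
      subst hbc
      obtain ⟨k1, k2, k3, k4, k5⟩ := hbg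
      refine ⟨k1, k2, k3, k4, ?_⟩
      have h9 : 1 * n ≤ ia * n := Nat.mul_le_mul_right n k1
      omega
    refine fin (tB n Q) (by rw [if_pos h0]) (by omega) (by omega) fun j hj => ?_
    · have t0 := hQ.tp0
      have tf1 : (tB n Q : ℝ) ≤ Q.tp * n := Nat.floor_le (by positivity)
      have tf2 : Q.tp * n < tB n Q + 1 := Nat.lt_floor_add_one _
      obtain ⟨f1, f2, -⟩ := fl hQ n 0 hj
      have a := hg.2 j hj
      have a' : g * n ≤ |Q.θ 0 j - Q.tp| * n := mul_le_mul_of_nonneg_right a hn0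
      rw [← abs_of_nonneg hn0, ← abs_mul, abs_of_nonneg hn0, sub_mul] at a'
      rw [h0]
      have key : ((m : ℝ) + 2) < |((tB n Q : ℕ) : ℝ) - ⌊Q.θ 0 j * n⌋₊| := by
        rw [abs_sub_comm]
        rcases le_abs.1 a' with h5 | h5
        · rw [lt_abs]; left; linarith
        · rw [lt_abs]; right; linarith
      exact_mod_cast key
  · -- the other sides
    have h8 : 1 * n ≤ x.1 * n := Nat.mul_le_mul_right n h0
    have hb : ∃ ta, bc = Bc.dob x.1 ta ∧ sW p n Q ⌊δ * n⌋₊ x.1 x.2 < ⌊ta * n⌋₊ ∧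
        ⌊ta * n⌋₊ < eW p n Q ⌊δ * n⌋₊ x.1 x.2 := by
      by_contra hcon
      push Not at hcon
      refine hnp ⟨by omega, ka_same x.1.isLt ht hsn hen fun ia ta hbc => ?_⟩
      have hcon' := hcon ta
      subst hbc
      obtain ⟨k1, k2, k3, k4, k5⟩ := hbg
      refine ⟨k1, k2, k3, k4, ?_⟩
      have h10 := dob_lt k3 k4 h.n0
      rcases lt_trichotomy (x.1 : ℕ) ia with hlt | heq | hgt
      · have h9 : (x.1 + 1) * n ≤ ia * n := Nat.mul_le_mul_right n hlt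
        rw [add_mul, one_mul] at h9
        omega
      · subst heq
        have hcon'' := hcon' rfl
        -- the junction is not exactly at the first step
        have hne : ⌊ta * n⌋₊ ≠ sW p n Q ⌊δ * n⌋₊ x.1 x.2 := by
          intro heq
          have d1 := k5 x.2 (by omega)
          have d2 := k5 (x.2 + 1) (by omega)
          have s1 := h.s1
          have s2 := h.s2
          have tf1 : (⌊ta * n⌋₊ : ℝ) ≤ ta * n := Nat.floor_le (by positivity)
          have tf2 : ta * n < ⌊ta * n⌋₊ + 1 := Nat.lt_floor_add_one _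
          rw [heq] at tf1 tf2
          have hgn := h.gn
          have hn' := h.hn
          have d1' : g * n ≤ |Q.θ x.1 x.2 - ta| * n := mul_le_mul_of_nonneg_right d1 hn0
          rw [← abs_of_nonneg hn0, ← abs_mul, abs_of_nonneg hn0, sub_mul] at d1'
          rcases le_abs.1 d1' with h5 | h5 <;> linarith
        omega
      · have h9 : (ia + 1) * n ≤ x.1 * n := Nat.mul_le_mul_right n hgt
        rw [add_mul, one_mul] at h9
        omega
    obtain ⟨ta, hbc, h1, h2⟩ := hb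
    subst hbc
    obtain ⟨k1, k2, k3, k4, k5⟩ := hbg
    refine fin ⌊ta * n⌋₊ (by rw [if_neg h0.ne']; rfl) h1 h2 fun j hj => ?_
    have tf1 : (⌊ta * n⌋₊ : ℝ) ≤ ta * n := Nat.floor_le (by positivity)
    have tf2 : ta * n < ⌊ta * n⌋₊ + 1 := Nat.lt_floor_add_one _
    obtain ⟨f1, f2, -⟩ := fl hQ n x.1 hj
    have a' : g * n ≤ |Q.θ x.1 j - ta| * n := mul_le_mul_of_nonneg_right (k5 j hj) hn0
    rw [← abs_of_nonneg hn0, ← abs_mul, abs_of_nonneg hn0, sub_mul] at a'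
    have key : ((m : ℝ) + 2) < |((⌊ta * n⌋₊ : ℕ) : ℝ) - ⌊Q.θ x.1 j * n⌋₊| := by
      rw [abs_sub_comm]
      rcases le_abs.1 a' with h5 | h5
      · rw [lt_abs]; left; linarith
      · rw [lt_abs]; right; linarith
    exact_mod_cast key

end near

end Vale.Agent.P167.H825.S
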