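import Vale.Agent.P167.H825.S.Fix

/-!
# P167, general `q`, block Q-START, H7S: the lower bound for a fixed size
-/

namespace Vale.Agent.P167.H825.S

open Finset MeasureTheory
open Vale.Agent.P167.BR
open Vale.Agent.P167.FK
open Vale.Agent.P167.FKA (Loc Ind ArmDec)
open Vale.Agent.P167.E6 (IsPolygon Encloses)
open Vale.Agent.P167.XDL (bS)
open Vale.Agent.P167.H519 (IsLim)
open Vale.Agent.P167.H825 (enl Marks dv)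
open Vale.Agent.P167.H825.Q (Row Bc)
open Vale.Agent.P167.H680.T (rowC uI frows mem_uI)
open Vale.Agent.P167.H662 (hsite)
open Vale.Agent.P167.H685 (LE)
open Vale.Agent.P167.H199 (Gap)
open Vale.Agent.P167.H562.QM (MajA)
open Vale.Agent.P167.QX (QL TB TO fLp VisL)
open Vale.Agent.P167.H398.Q
open Vale.Agent.P167.H506.Q (EF)
open Vale.Agent.P167.Enl (BGap box_disj gn_big tB qN)

variable {l : ℕ} {θ β : ℝ} {p : ZMod l → ℤ × ℤ} {S₀ : Finset (ℤ × ℤ)} {Q : Marks} {bc : Bc}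
  {n : ℕ} {P : Measure Cfg}

/-- Functions which agree on the frozen configurations have the same mean. -/
theorem EF_congr_ok [IsFiniteMeasure P] {K : Finset (ℤ × ℤ)} {κ : Cfg}
    (hg : ∀ᵐ ω ∂P, Good ω) {F G : Cfg → ℝ} (cF : CB F) (cG : CB G)
    (h : ∀ ω, Good ω → (∀ v ∈ K, ω v = κ v) → F ω = G ω) : EF P K κ F = EF P K κ G :=
  le_antisymm ((fn_EF hg).mono cF cG fun ω hω => (h ω hω.1 hω.2).le)
    ((fn_EF hg).mono cG cF fun ω hω => (h ω hω.1 hω.2).ge)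

section fix

variable (h0 : 0 < θ) (h1 : θ ≤ Real.pi / 3) (hp : IsPolygon p) (hD : Encloses p S₀)
  (hQ : Q.Ok) (hb : bc.Ok l Q) {g δ : ℝ} (hg : Gap Q l g) (hbg : BGap l Q g bc)
  (hδ : 0 < δ) (hδg : 4 * δ ≤ g) (hn : 16 ≤ δ * n)
  (hP : IsLim (2 * Real.cos θ) P) (hG : ∀ᵐ ω ∂P, Good ω) {α C : ℝ}
  (hA : ArmDec (2 * Real.cos θ) α C) (hC : 0 ≤ C) {σ : Cfg} (hσg : Good σ)
  (hσ : Frz (frows θ β p Q n ⌊δ * n⌋₊ bc) σ)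

include h0 h1 hp hD hQ hb hg hbg hδ hδg hn hP hG hA hC hσg hσ in
/-- The factors of the tips and of the junctions are almost independent. -/
theorem mix_TJ {ρ Rb : ℤ} (hρ : 0 ≤ ρ) (hRb : ⌊4 * δ * n⌋ ≤ Rb)
    (hR4 : (2 * Rb : ℝ) + 4 < g * n) (hR5 : (2 * ((Rb : ℤ) + ρ) : ℝ) + 12 < g * n)
    (hε1 : C * (((⌊4 * δ * n⌋ : ℤ) : ℝ) / (Rb : ℝ)) ^ α < 1)
    (hε : 8 * (univ : Finset (Fin l × Fin (Q.m + 1))).card *
      (C * (((⌊4 * δ * n⌋ : ℤ) : ℝ) / (Rb : ℝ)) ^ α) ≤ 1) :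
    EF P (uI (frows θ β p Q n ⌊δ * (n : ℝ)⌋₊ bc)) σ (fun ω =>
        Ttip θ (frows θ β p Q n ⌊δ * (n : ℝ)⌋₊ bc) ⌊δ * n / 16⌋ ω *
          Tjun θ (frows θ β p Q n ⌊δ * (n : ℝ)⌋₊ bc) ρ ω) ≤
      2 * (EF P (uI (frows θ β p Q n ⌊δ * (n : ℝ)⌋₊ bc)) σ
        (Tjun θ (frows θ β p Q n ⌊δ * (n : ℝ)⌋₊ bc) ρ) *
        EF P (uI (frows θ β p Q n ⌊δ * (n : ℝ)⌋₊ bc)) σ
        (Ttip θ (frows θ β p Q n ⌊δ * (n : ℝ)⌋₊ bc) ⌊δ * n / 16⌋)) := by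
  classical
  obtain ⟨t1, t2, t3⟩ := tip_rad hn le_rfl
  have hloc := Ttip_loc (θ := θ) (β := β) (bc := bc) hp hQ hg hδ hδg hn t1
  have hT0 := Ttip_nonneg h0 h1 (frows θ β p Q n ⌊δ * (n : ℝ)⌋₊ bc) ⌊δ * n / 16⌋
  have hJ0 := Tjun_nonneg h0 h1 (frows θ β p Q n ⌊δ * (n : ℝ)⌋₊ bc) ρ
  have hind := Tjun_ind (θ := θ) (β := β) hp hQ hg hδ hδg hn hbg (R := Rb) (ρ := ρ) (by omega) hR5
  have key := (ratio_holes (H680.T.cos_le h0 h1) hσg hP hG hA univ (hsite p Q n)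
    (K := uI (frows θ β p Q n ⌊δ * (n : ℝ)⌋₊ bc)) (r := ⌊4 * δ * n⌋) (R := Rb)
    (by omega) hRb (fun x _ y _ hxy => box_disj hp hQ hg (n := n) (by linarith) hxy)
    (fun x _ => ⟨bcol p Q bc n x, fun v hv hx =>
      frz_box hp hD hQ hg hδ hδg hn hb hbg hσ hR4 (by omega) x hv hx⟩) hC hε1 hε hT0 hloc hJ0
    (CB.of_loc (Tjun_loc _ _)) hind).1
  simpa only [mul_comm] using key

include h0 h1 hp hD hQ hb hg hbg hδ hδg hn hP hG hA hC hσg hσ in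
/-- The loops at the holes and the loops off the holes are almost independent. -/
theorem mix_GT (hβ : β = (θ - Real.pi) / 2 ∨ β = (Real.pi - 3 * θ) / 2) {R₁ R₂ R₃ R₄ : ℤ}
    (ha : ∀ ω : Cfg, Good ω → Frz (frows θ β p Q n ⌊δ * (n : ℝ)⌋₊ bc) ω →
      0 ≤ TO θ (uI (frows θ β p Q n ⌊δ * (n : ℝ)⌋₊ bc))
          (rowC θ (frows θ β p Q n ⌊δ * (n : ℝ)⌋₊ bc) 0).ph (hB p Q n R₃) ω)
    (hR1 : ⌊4 * δ * n⌋ ≤ R₁) (h12 : R₁ + 2 ≤ R₂) (h23 : R₂ ≤ R₃) (h34 : R₃ + 2 ≤ R₄)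
    (hR4 : (2 * R₄ : ℝ) + 4 < g * n)
    (hε1 : C * ((R₂ : ℝ) / (R₃ : ℝ)) ^ α < 1)
    (hε : 8 * (univ : Finset (Fin l × Fin (Q.m + 1))).card *
      (C * ((R₂ : ℝ) / (R₃ : ℝ)) ^ α) ≤ 1) :
    EF P (uI (frows θ β p Q n ⌊δ * (n : ℝ)⌋₊ bc)) σ
        (Gf θ β p S₀ Q bc n ⌊δ * (n : ℝ)⌋₊ 0 R₃ R₄) *
      EF P (uI (frows θ β p Q n ⌊δ * (n : ℝ)⌋₊ bc)) σ
        (T2f θ β p Q bc n ⌊δ * (n : ℝ)⌋₊ R₁ R₂) ≤
      2 * EF P (uI (frows θ β p Q n ⌊δ * (n : ℝ)⌋₊ bc)) σ (fun ω =>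
        Gf θ β p S₀ Q bc n ⌊δ * (n : ℝ)⌋₊ 0 R₃ R₄ ω *
          T2f θ β p Q bc n ⌊δ * (n : ℝ)⌋₊ R₁ R₂ ω) := by
  classical
  have hPp : IsProbabilityMeasure P := hP.1
  have hs : 0 < Real.sin θ := Real.sin_pos_of_pos_of_lt_pi h0 (by linarith [Real.pi_pos])
  have hc1 := H680.T.cos_le h0 h1
  have hc : Real.cos θ ≠ 0 := by intro h; rw [h] at hc1; norm_num at hc1
  obtain ⟨t1, t2, t3⟩ := tip_rad hn hR1
  have hR34 : (R₃ : ℝ) ≤ R₄ := by exact_mod_cast (by omega : R₃ ≤ R₄)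
  have hdis : ∀ x y : Fin l × Fin (Q.m + 1), x ≠ y →
      Disjoint (Bq (hsite p Q n x) R₄) (Bq (hsite p Q n y) R₄) := fun x y hxy =>
    box_disj hp hQ hg (n := n) (by linarith) hxy
  have cT := cb_T2f (θ := θ) (β := β) (p := p) (Q := Q) (bc := bc) (n := n)
    (d := ⌊δ * (n : ℝ)⌋₊) h12
  have cGf := cb_Gf (β := β) (p := p) (S₀ := S₀) (Q := Q) (bc := bc) (n := n)
        (d := ⌊δ * (n : ℝ)⌋₊) (cf' := 0) (R₃ := R₃) (R₄ := R₄) h0 h1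
  have cG := (cb_Gg cGf).abs
  have hpos : ∀ ω : Cfg, Good ω →
      (∀ v ∈ uI (frows θ β p Q n ⌊δ * (n : ℝ)⌋₊ bc), ω v = σ v) →
      |Gg (Gf θ β p S₀ Q bc n ⌊δ * (n : ℝ)⌋₊ 0 R₃ R₄) ω| =
        Gf θ β p S₀ Q bc n ⌊δ * (n : ℝ)⌋₊ 0 R₃ R₄ ω := by
    intro ω hω hωσ
    rw [Gg_good hω, abs_of_nonneg]
    unfold Gf
    rw [XBoff_zero hs.ne' hc (gauge_cos hβ), mul_one]
    exact mul_nonneg (ha ω hω (frz_of hσ hωσ))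
      (Set.indicator_nonneg (fun _ _ => zero_le_one) _)
  have hind : Ind (hB p Q n R₃) fun ω => |Gg (Gf θ β p S₀ Q bc n ⌊δ * (n : ℝ)⌋₊ 0 R₃ R₄) ω| := by
    intro ω ω' h
    exact congrArg _ (Gf_ind (θ := θ) (β := β) (S₀ := S₀) (bc := bc) (d := ⌊δ * (n : ℝ)⌋₊)
      (cf' := 0) h34 hdis subset_rfl ω ω' h)
  have key := (ratio_holes hc1 hσg hP hG hA univ (hsite p Q n)
    (K := uI (frows θ β p Q n ⌊δ * (n : ℝ)⌋₊ bc)) (r := R₂) (R := R₃)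
    (by omega) h23 (fun x _ y _ hxy => box_disj hp hQ hg (n := n) (by linarith) hxy)
    (fun x _ => ⟨bcol p Q bc n x, fun v hv hx =>
      frz_box hp hD hQ hg hδ hδg hn hb hbg hσ (by linarith) (by omega) x hv hx⟩) hC hε1 hε
    T2f_nonneg (T2f_loc (θ := θ) (β := β) (p := p) (Q := Q) (bc := bc) (n := n)
    (d := ⌊δ * (n : ℝ)⌋₊) h12) (fun ω => abs_nonneg _) cG hind).2
  rw [EF_congr_ok hG cG cGf hpos, EF_congr_ok hG (cG.mul cT) (cGf.mul cT) fun ω h2 h3 => by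
    rw [hpos ω h2 h3]] at key
  exact key

end fix

end Vale.Agent.P167.H825.S
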