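import Vale.Agent.P167.H825.S.Lb

/-!
# P167, general `q`, block Q-START, H7S: the lower bounds for a fixed size
-/

namespace Vale.Agent.P167.H825.S

open Finset MeasureTheory
open Vale.Agent.P167.BR
open Vale.Agent.P167.FK
open Vale.Agent.P167.FKA (Loc Ind ArmDec)
open Vale.Agent.P167.E6 (IsPolygon Encloses)
open Vale.Agent.P167.XDL (bS)
open Vale.Agent.P167.H519 (IsLim)
open Vale.Agent.P167.H825 (enl Marks dv)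
open Vale.Agent.P167.H825.Q (Row Bc)
open Vale.Agent.P167.H680.T (rowC uI frows mem_uI)
open Vale.Agent.P167.H662 (hsite)
open Vale.Agent.P167.H685 (LE)
open Vale.Agent.P167.H199 (Gap)
open Vale.Agent.P167.H562.QM (MajA)
open Vale.Agent.P167.QX (QL TB TO fLp VisL)
open Vale.Agent.P167.H398.Q
open Vale.Agent.P167.H506.Q (EF)
open Vale.Agent.P167.Enl (BGap box_disj gn_big tB qN)

variable {l : ℕ} {θ β : ℝ} {p : ZMod l → ℤ × ℤ} {S₀ : Finset (ℤ × ℤ)} {Q : Marks} {bc : Bc}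
  {n : ℕ} {P : Measure Cfg}

/-- The configurations which agree with a frozen one on the rows are frozen. -/
theorem frz_of {ι : Type} [Fintype ι] {r : ι → Row} {σ ω : Cfg} (hσ : Frz r σ)
    (h : ∀ v ∈ uI r, ω v = σ v) : Frz r ω := fun x v hv => by
  rw [h v (mem_uI.2 ⟨x, hv⟩)]
  exact hσ x v hv

/-- If there are no arms, the loops at the holes are confined. -/
theorem cnf_of {R R' K₁ : ℤ} {ω : Cfg} (hR : R + 2 ≤ R') (hK : R' ≤ K₁)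
    (h : ω ∈ NAh p Q bc n (R + 1) (R' - 1)) : Cnf p Q n R K₁ ω := by
  intro ℓ hℓ hv
  obtain ⟨x, -, hx⟩ := conf_NA (J := univ) (b := bcol p Q bc n) (c := hsite p Q n) hℓ hR hv h
  exact ⟨x, fun v hv' => Bq_mono' hK (hx v hv')⟩

theorem hB_mono {R R' : ℤ} (h : R ≤ R') : hB p Q n R ⊆ hB p Q n R' := by
  intro v hv
  obtain ⟨x, hx⟩ := Enl.mem_hB.1 hv
  exact Enl.mem_hB.2 ⟨x, Bq_mono' h hx⟩

/-- The product over the loops off the holes is not negative. -/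
theorem TO_nonneg {I : Finset (ℤ × ℤ)} {a : Ed → Bool → ℝ} {R R' : ℤ} (hR : R ≤ R') {ω : Cfg}
    (h : ∀ ℓ ∈ LE ω (bS I), ¬ VisL (hB p Q n R) ℓ → 0 ≤ fLp θ I a ω ℓ) :
    0 ≤ TO θ I a (hB p Q n R') ω := by
  classical
  unfold TO
  refine prod_nonneg fun ℓ hℓ => ?_
  rw [mem_filter] at hℓ
  refine h ℓ hℓ.1 fun hv => hℓ.2 ?_
  obtain ⟨e, he, h1⟩ := hv
  exact ⟨e, he, Finset.mem_coe.2 (hB_mono hR (Finset.mem_coe.1 h1))⟩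

section fix

variable (h0 : 0 < θ) (h1 : θ ≤ Real.pi / 3) (hp : IsPolygon p) (hD : Encloses p S₀)
  (hQ : Q.Ok) (hb : bc.Ok l Q) {g δ : ℝ} (hg : Gap Q l g) (hbg : BGap l Q g bc)
  (hδ : 0 < δ) (hδg : 4 * δ ≤ g) (hn : 16 ≤ δ * n)
  (hP : IsLim (2 * Real.cos θ) P) (hG : ∀ᵐ ω ∂P, Good ω) {α C : ℝ}
  (hA : ArmDec (2 * Real.cos θ) α C) {σ : Cfg}
  (hσ : Frz (frows θ β p Q n ⌊δ * n⌋₊ bc) σ)

include hn in
theorem tip_rad {R₁ : ℤ} (hR : ⌊4 * δ * n⌋ ≤ R₁) :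
    (⌊δ * n⌋₊ : ℤ) + 5 + ⌊δ * n / 16⌋ ≤ R₁ ∧ (⌊δ * n⌋₊ : ℤ) + 4 ≤ R₁ ∧ 0 ≤ R₁ := by
  have a1 : (⌊δ * n⌋₊ : ℝ) ≤ δ * n := Nat.floor_le (by linarith)
  have a2 : (⌊δ * n / 16⌋ : ℝ) ≤ δ * n / 16 := Int.floor_le _
  have a3 : 4 * δ * n < (⌊4 * δ * n⌋ : ℝ) + 1 := Int.lt_floor_add_one _
  have a4 : (0 : ℝ) ≤ (⌊δ * n⌋₊ : ℝ) := Nat.cast_nonneg _
  have b1 : (((⌊δ * n⌋₊ : ℤ) + 5 + ⌊δ * n / 16⌋ : ℤ) : ℝ) < ((⌊4 * δ * n⌋ : ℤ) : ℝ) := by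
    push_cast
    nlinarith
  have b2 : (((⌊δ * n⌋₊ : ℤ) + 4 : ℤ) : ℝ) < ((⌊4 * δ * n⌋ : ℤ) : ℝ) := by
    push_cast
    nlinarith
  have c1 : (⌊δ * n⌋₊ : ℤ) + 5 + ⌊δ * n / 16⌋ < ⌊4 * δ * n⌋ := by exact_mod_cast b1
  have c2 : (⌊δ * n⌋₊ : ℤ) + 4 < ⌊4 * δ * n⌋ := by exact_mod_cast b2
  omega

include h0 h1 hp hD hQ hb hg hbg hδ hδg hn hP hG hA hσ in
/-- **The loops at the holes.** -/
theorem low_tip {A M : ℝ} (hA1 : 1 ≤ A) (hM : 0 < M) {N₁ : Cfg → ℕ} {B₁ : Finset (ℤ × ℤ)}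
    (hN : ∀ ω ω' : Cfg, (∀ v ∈ B₁, ω v = ω' v) → N₁ ω = N₁ ω')
    (hMaj : ∀ ω, Good ω → MajA (hB p Q n ⌊4 * δ * n⌋) (δ * n / 64) ω (N₁ ω))
    {R₁ R₂ K₁ : ℤ}
    (hd : ∀ ω : Cfg, Good ω → Frz (frows θ β p Q n ⌊δ * (n : ℝ)⌋₊ bc) ω → ∀ N : ℕ,
      Cnf p Q n R₁ K₁ ω → MajA (hB p Q n ⌊4 * δ * n⌋) (δ * n / 64) ω N →
      Ttip θ (frows θ β p Q n ⌊δ * (n : ℝ)⌋₊ bc) ⌊δ * n / 16⌋ ω ≤
        A ^ (N + 1) * TB θ (uI (frows θ β p Q n ⌊δ * (n : ℝ)⌋₊ bc))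
          (rowC θ (frows θ β p Q n ⌊δ * (n : ℝ)⌋₊ bc) 0).ph (hB p Q n R₁) ω)
    (h2 : EF P (uI (frows θ β p Q n ⌊δ * (n : ℝ)⌋₊ bc)) σ (fun ω =>
        Ttip θ (frows θ β p Q n ⌊δ * (n : ℝ)⌋₊ bc) ⌊δ * n / 16⌋ ω * (A ^ (N₁ ω + 1)) ^ 2) ≤
      M * EF P (uI (frows θ β p Q n ⌊δ * (n : ℝ)⌋₊ bc)) σ
        (Ttip θ (frows θ β p Q n ⌊δ * (n : ℝ)⌋₊ bc) ⌊δ * n / 16⌋))
    (hR1 : ⌊4 * δ * n⌋ ≤ R₁) (h12 : R₁ + 2 ≤ R₂) (hK : R₂ ≤ K₁) (hR2 : (2 * R₂ : ℝ) + 4 < g * n)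
    (harm : (univ : Finset (Fin l × Fin (Q.m + 1))).card *
      (C * (((R₁ + 1 : ℤ) : ℝ) / ((R₂ - 1 : ℤ) : ℝ)) ^ α) ≤ 1 / 2) :
    EF P (uI (frows θ β p Q n ⌊δ * (n : ℝ)⌋₊ bc)) σ
        (Ttip θ (frows θ β p Q n ⌊δ * (n : ℝ)⌋₊ bc) ⌊δ * n / 16⌋) ≤
      4 * M * EF P (uI (frows θ β p Q n ⌊δ * (n : ℝ)⌋₊ bc)) σ
        (T2f θ β p Q bc n ⌊δ * (n : ℝ)⌋₊ R₁ R₂) := by
  classical
  have hPp : IsProbabilityMeasure P := hP.1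
  obtain ⟨t1, t2, t3⟩ := tip_rad hn hR1
  have hloc := Ttip_loc (θ := θ) (β := β) (bc := bc) hp hQ hg hδ hδg hn t1
  have hT0 := Ttip_nonneg h0 h1 (frows θ β p Q n ⌊δ * (n : ℝ)⌋₊ bc) ⌊δ * n / 16⌋
  have cT : CB (Ttip θ (frows θ β p Q n ⌊δ * (n : ℝ)⌋₊ bc) ⌊δ * n / 16⌋) := CB.of_loc hloc
  have hA0 : 0 < A := by linarith
  have key := low_arm (H680.T.cos_le h0 h1) hP hG hA univ (hsite p Q n) (bcol p Q bc n)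
    (K := uI (frows θ β p Q n ⌊δ * (n : ℝ)⌋₊ bc)) (κ := σ)
    (r := R₁ + 1) (R := R₂ - 1) (by omega) (by omega) (fun x _ v hv hx =>
      frz_box hp hD hQ hg hδ hδg hn hb hbg hσ hR2 (by omega) x hv (Bq_mono' (by omega) hx))
    hT0 cT (fun x _ => ?_) (CB.const 1) (fun _ => ⟨zero_le_one, le_rfl⟩)
  · simp only [mul_one, one_mul] at key
    have h3 : (1 / 2) * EF P (uI (frows θ β p Q n ⌊δ * (n : ℝ)⌋₊ bc)) σ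
        (Ttip θ (frows θ β p Q n ⌊δ * (n : ℝ)⌋₊ bc) ⌊δ * n / 16⌋) ≤
        EF P (uI (frows θ β p Q n ⌊δ * (n : ℝ)⌋₊ bc)) σ (fun ω =>
          Ttip θ (frows θ β p Q n ⌊δ * (n : ℝ)⌋₊ bc) ⌊δ * n / 16⌋ ω *
            (NAh p Q bc n (R₁ + 1) (R₂ - 1)).indicator 1 ω) := by
      have := mul_le_mul_of_nonneg_right harm (H506.Q.EF_nonneg (P := P)
        (K := uI (frows θ β p Q n ⌊δ * (n : ℝ)⌋₊ bc)) (κ := σ) hT0)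
      unfold NAh
      linarith
    have := (fn_EF (K := uI (frows θ β p Q n ⌊δ * (n : ℝ)⌋₊ bc)) (κ := σ) hG).low cT
      (H := fun ω => A ^ (N₁ ω + 1)) (CB.of_loc (B := B₁) fun ω ω' h => by
        show A ^ (N₁ ω + 1) = A ^ (N₁ ω' + 1)
        rw [hN ω ω' h])
      (χ := (NAh p Q bc n (R₁ + 1) (R₂ - 1)).indicator 1) cb_NA (cb_T2f (θ := θ) (β := β)
        (p := p) (Q := Q) (bc := bc) (n := n) (d := ⌊δ * (n : ℝ)⌋₊) h12) hM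
      (by norm_num : (0 : ℝ) < 1 / 2) (fun ω _ => hT0 ω) (fun ω _ => one_le_pow₀ hA1)
      (fun ω _ => ⟨Set.indicator_nonneg (fun _ _ => zero_le_one) _, ?_⟩) (fun ω hω => ?_) h2 h3
    · calc _ ≤ M / (1 / 2) ^ 2 * _ := this
        _ = _ := by ring
    · by_cases hN' : ω ∈ NAh p Q bc n (R₁ + 1) (R₂ - 1)
      · rw [Set.indicator_of_mem hN']; rfl
      · rw [Set.indicator_of_notMem hN']; exact zero_le_one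
    · unfold T2f
      by_cases hN' : ω ∈ NAh p Q bc n (R₁ + 1) (R₂ - 1)
      · rw [Set.indicator_of_mem hN', Pi.one_apply, mul_one, mul_one]
        have := hd ω hω.1 (frz_of hσ hω.2) (N₁ ω) (cnf_of h12 hK hN') (hMaj ω hω.1)
        exact this.trans (mul_le_mul_of_nonneg_left (le_abs_self _) (pow_pos hA0 _).le)
      · rw [Set.indicator_of_notMem hN', mul_zero, mul_zero, mul_zero]
  · refine hloc.ind ?_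
    rw [Finset.disjoint_left]
    intro v hv hv'
    rw [mem_sdiff] at hv'
    obtain ⟨y, hy⟩ := Enl.mem_hB.1 hv
    by_cases hxy : x = y
    · subst hxy
      exact hv'.2 (Bq_mono' (by omega) hy)
    · exact Finset.disjoint_left.1 (box_disj (R := R₂) hp hQ hg (n := n) (by linarith) hxy)
        (Bq_mono' (by omega) hv'.1) (Bq_mono' (by omega) hy)

/-- The indicator of a set given by a functional. -/
theorem cb_ne {F : Cfg → ℝ} (h : CB F) : CB ({ω | F ω ≠ 0}.indicator (1 : Cfg → ℝ)) := by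
  classical
  obtain ⟨h1, -⟩ := h
  refine ⟨(h1.comp fun x => if x ≠ 0 then (1 : ℝ) else 0).congr fun ω _ => ?_, 1, fun ω _ => ?_⟩
  · by_cases h2 : F ω ≠ 0
    · rw [if_pos h2, Set.indicator_of_mem (show ω ∈ {ω | F ω ≠ 0} from h2)]; rfl
    · rw [if_neg h2, Set.indicator_of_notMem (show ω ∉ {ω | F ω ≠ 0} from h2)]
  · by_cases h2 : F ω ≠ 0
    · rw [Set.indicator_of_mem (show ω ∈ {ω | F ω ≠ 0} from h2)]; simp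
    · rw [Set.indicator_of_notMem (show ω ∉ {ω | F ω ≠ 0} from h2)]; simp

include h0 h1 hp hD hQ hb hg hbg hδ hδg hn hP hG hA hσ in
/-- **The loops off the holes.** -/
theorem low_jun (hβ : β = (θ - Real.pi) / 2 ∨ β = (Real.pi - 3 * θ) / 2)
    {A M CP : ℝ} (hA1 : 1 ≤ A) (hM : 0 < M) (hCP : 0 < CP) {N₂ : Cfg → ℕ}
    {B₂ Z : Finset (ℤ × ℤ)} (hN : ∀ ω ω' : Cfg, (∀ v ∈ B₂, ω v = ω' v) → N₂ ω = N₂ ω')
    {κ' : ℝ} (hMaj : ∀ ω, Good ω → MajA Z (κ' * n) ω (N₂ ω)) {R₃ R₄ K₁ : ℤ}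
    (ha : ∀ ω : Cfg, Good ω → Frz (frows θ β p Q n ⌊δ * (n : ℝ)⌋₊ bc) ω →
      0 ≤ TO θ (uI (frows θ β p Q n ⌊δ * (n : ℝ)⌋₊ bc))
          (rowC θ (frows θ β p Q n ⌊δ * (n : ℝ)⌋₊ bc) 0).ph (hB p Q n R₃) ω)
    (he : ∀ ω : Cfg, Good ω → Frz (frows θ β p Q n ⌊δ * (n : ℝ)⌋₊ bc) ω → ∀ N : ℕ,
      Cnf p Q n R₃ K₁ ω → MajA Z (κ' * n) ω N →
      TO θ (uI (frows θ β p Q n ⌊δ * (n : ℝ)⌋₊ bc))
          (rowC θ (frows θ β p Q n ⌊δ * (n : ℝ)⌋₊ bc) 0).ph (hB p Q n R₃) ω ≠ 0 →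
      Tjun θ (frows θ β p Q n ⌊δ * (n : ℝ)⌋₊ bc) ⌊4 * κ' * n⌋ ω ≤
        A ^ (N + 1) * TO θ (uI (frows θ β p Q n ⌊δ * (n : ℝ)⌋₊ bc))
          (rowC θ (frows θ β p Q n ⌊δ * (n : ℝ)⌋₊ bc) 0).ph (hB p Q n R₃) ω)
    (h2 : EF P (uI (frows θ β p Q n ⌊δ * (n : ℝ)⌋₊ bc)) σ (fun ω =>
        Tjun θ (frows θ β p Q n ⌊δ * (n : ℝ)⌋₊ bc) ⌊4 * κ' * n⌋ ω * (A ^ (N₂ ω + 1)) ^ 2) ≤
      M * EF P (uI (frows θ β p Q n ⌊δ * (n : ℝ)⌋₊ bc)) σ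
        (Tjun θ (frows θ β p Q n ⌊δ * (n : ℝ)⌋₊ bc) ⌊4 * κ' * n⌋))
    (hP2 : EF P (uI (frows θ β p Q n ⌊δ * (n : ℝ)⌋₊ bc)) σ
        (Tjun θ (frows θ β p Q n ⌊δ * (n : ℝ)⌋₊ bc) ⌊4 * κ' * n⌋) ≤
      CP * EF P (uI (frows θ β p Q n ⌊δ * (n : ℝ)⌋₊ bc)) σ
        (fun ω => Tjun θ (frows θ β p Q n ⌊δ * (n : ℝ)⌋₊ bc) ⌊4 * κ' * n⌋ ω *
          {ω | TO θ (uI (frows θ β p Q n ⌊δ * (n : ℝ)⌋₊ bc))
            (rowC θ (frows θ β p Q n ⌊δ * (n : ℝ)⌋₊ bc) 0).ph (hB p Q n R₃) ω ≠ 0}.indicator 1 ω))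
    (hR3 : (⌊δ * (n : ℝ)⌋₊ : ℤ) + 4 ≤ R₃) (h34 : R₃ + 2 ≤ R₄) (hK : R₄ ≤ K₁)
    (hR4 : (2 * R₄ : ℝ) + 4 < g * n) (hρ : 0 ≤ ⌊4 * κ' * n⌋)
    (hR5 : (2 * ((R₄ : ℤ) + ⌊4 * κ' * n⌋) : ℝ) + 12 < g * n)
    (harm : (univ : Finset (Fin l × Fin (Q.m + 1))).card *
      (C * (((R₃ + 1 : ℤ) : ℝ) / ((R₄ - 1 : ℤ) : ℝ)) ^ α) ≤ 1 / (2 * CP)) :
    EF P (uI (frows θ β p Q n ⌊δ * (n : ℝ)⌋₊ bc)) σ
        (Tjun θ (frows θ β p Q n ⌊δ * (n : ℝ)⌋₊ bc) ⌊4 * κ' * n⌋) ≤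
      4 * M * CP ^ 2 * EF P (uI (frows θ β p Q n ⌊δ * (n : ℝ)⌋₊ bc)) σ
        (Gf θ β p S₀ Q bc n ⌊δ * (n : ℝ)⌋₊ 0 R₃ R₄) := by
  classical
  have hPp : IsProbabilityMeasure P := hP.1
  have hs : 0 < Real.sin θ := Real.sin_pos_of_pos_of_lt_pi h0 (by linarith [Real.pi_pos])
  have hc1 := H680.T.cos_le h0 h1
  have hc : Real.cos θ ≠ 0 := by intro h; rw [h] at hc1; norm_num at hc1
  have hind := Tjun_ind (θ := θ) (β := β) hp hQ hg hδ hδg hn hbg (R := R₄)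
    (ρ := ⌊4 * κ' * n⌋) (by omega) hR5
  have hT0 := Tjun_nonneg h0 h1 (frows θ β p Q n ⌊δ * (n : ℝ)⌋₊ bc) ⌊4 * κ' * n⌋
  have cT : CB (Tjun θ (frows θ β p Q n ⌊δ * (n : ℝ)⌋₊ bc) ⌊4 * κ' * n⌋) :=
    CB.of_loc (Tjun_loc _ _)
  have cO := cb_ne (cb_TO (I := uI (frows θ β p Q n ⌊δ * (n : ℝ)⌋₊ bc))
    (a := (rowC θ (frows θ β p Q n ⌊δ * (n : ℝ)⌋₊ bc) 0).ph)
    (B := (hB p Q n R₃ : Set (ℤ × ℤ))) hs hc1)
  have hA0 : 0 < A := by linarith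
  have i01 : ∀ (S : Set Cfg) (ω : Cfg), 0 ≤ (S.indicator 1 ω : ℝ) ∧ (S.indicator 1 ω : ℝ) ≤ 1 := by
    intro S ω
    by_cases hS : ω ∈ S
    · rw [Set.indicator_of_mem hS]; exact ⟨zero_le_one, le_rfl⟩
    · rw [Set.indicator_of_notMem hS]; exact ⟨le_rfl, zero_le_one⟩
  have key := low_arm hc1 hP hG hA univ (hsite p Q n) (bcol p Q bc n)
    (K := uI (frows θ β p Q n ⌊δ * (n : ℝ)⌋₊ bc)) (κ := σ)
    (r := R₃ + 1) (R := R₄ - 1) (by omega) (by omega) (fun x _ v hv hx =>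
      frz_box hp hD hQ hg hδ hδg hn hb hbg hσ hR4 (by omega) x hv (Bq_mono' (by omega) hx))
    hT0 cT (fun x _ => ?_) cO (fun ω => i01 _ ω)
  · have e0 : 0 ≤ EF P (uI (frows θ β p Q n ⌊δ * (n : ℝ)⌋₊ bc)) σ
        (Tjun θ (frows θ β p Q n ⌊δ * (n : ℝ)⌋₊ bc) ⌊4 * κ' * n⌋) := H506.Q.EF_nonneg hT0
    have h3 : (1 / (2 * CP)) * EF P (uI (frows θ β p Q n ⌊δ * (n : ℝ)⌋₊ bc)) σ
        (Tjun θ (frows θ β p Q n ⌊δ * (n : ℝ)⌋₊ bc) ⌊4 * κ' * n⌋) ≤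
        EF P (uI (frows θ β p Q n ⌊δ * (n : ℝ)⌋₊ bc)) σ (fun ω =>
          Tjun θ (frows θ β p Q n ⌊δ * (n : ℝ)⌋₊ bc) ⌊4 * κ' * n⌋ ω *
            ({ω | TO θ (uI (frows θ β p Q n ⌊δ * (n : ℝ)⌋₊ bc))
            (rowC θ (frows θ β p Q n ⌊δ * (n : ℝ)⌋₊ bc) 0).ph (hB p Q n R₃) ω ≠ 0}.indicator 1 ω *
            (NA univ (bcol p Q bc n) (hsite p Q n) (R₃ + 1) (R₄ - 1)).indicator 1 ω)) := by
      have a1 := mul_le_mul_of_nonneg_right harm e0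
      have a2 : 1 / CP * EF P (uI (frows θ β p Q n ⌊δ * (n : ℝ)⌋₊ bc)) σ
        (Tjun θ (frows θ β p Q n ⌊δ * (n : ℝ)⌋₊ bc) ⌊4 * κ' * n⌋) ≤
        EF P (uI (frows θ β p Q n ⌊δ * (n : ℝ)⌋₊ bc)) σ
        (fun ω => Tjun θ (frows θ β p Q n ⌊δ * (n : ℝ)⌋₊ bc) ⌊4 * κ' * n⌋ ω *
          {ω | TO θ (uI (frows θ β p Q n ⌊δ * (n : ℝ)⌋₊ bc))
            (rowC θ (frows θ β p Q n ⌊δ * (n : ℝ)⌋₊ bc) 0).ph (hB p Q n R₃) ω ≠ 0}.indicator 1 ω) := by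
        rw [one_div, inv_mul_le_iff₀ hCP]
        exact hP2
      have a3 : (1 : ℝ) / CP = 1 / (2 * CP) + 1 / (2 * CP) := by field_simp; norm_num
      rw [a3, add_mul] at a2
      linarith
    have := (fn_EF (K := uI (frows θ β p Q n ⌊δ * (n : ℝ)⌋₊ bc)) (κ := σ) hG).low cT
      (H := fun ω => A ^ (N₂ ω + 1)) (CB.of_loc (B := B₂) fun ω ω' h => by
        show A ^ (N₂ ω + 1) = A ^ (N₂ ω' + 1)
        rw [hN ω ω' h])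
      (cO.mul (cb_NA (J := univ) (b := bcol p Q bc n) (c := hsite p Q n) (r := R₃ + 1)
        (R := R₄ - 1))) (cb_Gf (β := β) (p := p) (S₀ := S₀) (Q := Q) (bc := bc) (n := n)
        (d := ⌊δ * (n : ℝ)⌋₊) (cf' := 0) (R₃ := R₃) (R₄ := R₄) h0 h1) hM
      (by positivity : (0 : ℝ) < 1 / (2 * CP)) (fun ω _ => hT0 ω) (fun ω _ => one_le_pow₀ hA1)
      (fun ω _ => ?_) (fun ω hω => ?_) h2 h3
    · calc _ ≤ M / (1 / (2 * CP)) ^ 2 * _ := this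
        _ = _ := by field_simp; ring
    · have b1 := i01 {ω | TO θ (uI (frows θ β p Q n ⌊δ * (n : ℝ)⌋₊ bc))
            (rowC θ (frows θ β p Q n ⌊δ * (n : ℝ)⌋₊ bc) 0).ph (hB p Q n R₃) ω ≠ 0} ω
      have b2 := i01 (NA univ (bcol p Q bc n) (hsite p Q n) (R₃ + 1) (R₄ - 1)) ω
      exact ⟨mul_nonneg b1.1 b2.1, mul_le_one₀ b1.2 b2.1 b2.2⟩
    · have hfr := frz_of hσ hω.2
      have hTO := ha ω hω.1 hfr
      unfold Gf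
      rw [XBoff_zero hs.ne' hc (gauge_cos hβ), mul_one]
      by_cases hN' : ω ∈ NAh p Q bc n (R₃ + 1) (R₄ - 1)
      · have e1 : ((NA univ (bcol p Q bc n) (hsite p Q n) (R₃ + 1) (R₄ - 1)).indicator 1 ω : ℝ)
            = 1 := by
          rw [Set.indicator_of_mem (show ω ∈ NA _ _ _ _ _ from hN')]; rfl
        rw [Set.indicator_of_mem hN', e1, Pi.one_apply, mul_one, mul_one]
        by_cases hne : TO θ (uI (frows θ β p Q n ⌊δ * (n : ℝ)⌋₊ bc))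
            (rowC θ (frows θ β p Q n ⌊δ * (n : ℝ)⌋₊ bc) 0).ph (hB p Q n R₃) ω ≠ 0
        · rw [Set.indicator_of_mem (show ω ∈ {ω | TO θ _ _ _ ω ≠ 0} from hne), Pi.one_apply,
            mul_one]
          exact he ω hω.1 hfr (N₂ ω) (cnf_of h34 hK hN') (hMaj ω hω.1) hne
        · rw [Set.indicator_of_notMem (show ω ∉ {ω | TO θ _ _ _ ω ≠ 0} from hne), mul_zero]
          exact mul_nonneg (pow_pos hA0 _).le hTO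
      · have e1 : ((NA univ (bcol p Q bc n) (hsite p Q n) (R₃ + 1) (R₄ - 1)).indicator 1 ω : ℝ)
            = 0 := by
          rw [Set.indicator_of_notMem (show ω ∉ NA _ _ _ _ _ from hN')]
        rw [Set.indicator_of_notMem hN', e1, mul_zero, mul_zero, mul_zero, mul_zero]
  · refine hind.mono fun v hv => ?_
    exact Enl.mem_hB.2 ⟨x, Bq_mono' (by omega) (mem_sdiff.1 hv).1⟩

end fix

end Vale.Agent.P167.H825.S
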