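import Vale.Agent.P167.H680.S.L2F
import Vale.Agent.P167.H662.D2.E

/-!
# P167, general `q`, block Q-START: `L2S`

(a) 871 `frame_fLp_nonneg`, (b) 592 `frame_b`, (c), (e) 680 `frameC`, `frameE`, (d) 662 `l2s_d`.
-/

set_option autoImplicit false

namespace Vale.Agent.P167.H825.S

open Finset Filter
open Vale.Agent.P167.FK
open Vale.Agent.P167.E6 (IsPolygon Encloses)
open Vale.Agent.P167.XDL (bS)
open Vale.Agent.P167.H825 (enl Marks)
open Vale.Agent.P167.H825.Q (Row Bc)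
open Vale.Agent.P167.H680.T (rowC uI frows)
open Vale.Agent.P167.H662 (hsite)
open Vale.Agent.P167.H685 (LE)
open Vale.Agent.P167.H199 (Gap exists_Gap)
open Vale.Agent.P167.H562.QM (MajA)
open Vale.Agent.P167.QX (TB TO fLp VisL)
open Vale.Agent.P167.H398.Q (hB Ttip Tjun Frz Cnf L2S)
open Vale.Agent.P167.Enl (BGap exists_BGap R0)

variable {θ β : ℝ}

/-- **(L2S)** -/
theorem l2s (h0 : 0 < θ) (h1 : θ ≤ Real.pi / 3)
    (hβ : β = (θ - Real.pi) / 2 ∨ β = (Real.pi - 3 * θ) / 2) : L2S θ β := by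
  have hC := H680.S.frameC h0 h1 hβ
  have hE := H680.S.frameE h0 h1 hβ
  intro l _ p S₀ hp hD Q hQ bc hb
  obtain ⟨g1, hg1, hgap1⟩ := exists_Gap hQ l
  obtain ⟨g2, hg2, hbg2⟩ := exists_BGap hb
  obtain ⟨g, hg0, hgap, hbg⟩ : ∃ g : ℝ, 0 < g ∧ Gap Q l g ∧ BGap l Q g bc :=
    ⟨min g1 g2, lt_min hg1 hg2,
      ⟨fun i hi j hj => by linarith [hgap1.1 i hi j hj, min_le_left g1 g2],
        fun j hj => (min_le_left _ _).trans (hgap1.2 j hj)⟩, hbg2.mono (min_le_right _ _)⟩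
  have hA₁ := H662.D2.one_le_cA h0 h1 (l * (Q.m + 1))
  set A₁ : ℝ := H662.D2.cA θ (l * (Q.m + 1)) with hA₁d
  obtain ⟨A₂, hA₂, he⟩ := hE l p S₀ hp hD Q hQ bc hb g hgap hbg
  refine ⟨g / 32, by positivity, fun κ' hκ' hκ'1 => ?_⟩
  refine ⟨max A₁ A₂, g / 64, hA₁.trans (le_max_left _ _), by positivity, ?_⟩
  intro δ hδ hδ'
  have dg : 32 * δ ≤ g := by linarith
  filter_upwards [eventually_ge_atTop ⌈16 / δ⌉₊, eventually_ge_atTop ⌈1024 / δ⌉₊,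
    eventually_ge_atTop ⌈2 / κ'⌉₊] with n nn nn1 nn2
  have hn : 16 ≤ δ * n := by
    have h1 : 16 / δ ≤ n := (Nat.le_ceil _).trans (by exact_mod_cast nn)
    rw [div_le_iff₀ hδ] at h1
    linarith
  have hn1 : 1024 ≤ δ * n := by
    have h1 : 1024 / δ ≤ n := (Nat.le_ceil _).trans (by exact_mod_cast nn1)
    rw [div_le_iff₀ hδ] at h1
    linarith
  have hn2 : 2 ≤ κ' * n := by
    have h1 : 2 / κ' ≤ n := (Nat.le_ceil _).trans (by exact_mod_cast nn2)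
    rw [div_le_iff₀ hκ'] at h1
    linarith
  have hn0 : (0 : ℝ) < n := by
    by_contra h
    push Not at h
    linarith [mul_nonpos_of_nonneg_of_nonpos hδ.le h]
  have e1 : 32 * (δ * n) ≤ g * n := by
    rw [← mul_assoc]
    exact mul_le_mul_of_nonneg_right dg hn0.le
  have e2 : 32 * (κ' * n) ≤ g * n := by
    rw [← mul_assoc]
    exact mul_le_mul_of_nonneg_right (by linarith) hn0.le
  have hR' : (2 * (⌊g / 32 * n⌋ : ℤ) : ℝ) + 8 < g * n := by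
    linarith [Int.floor_le (g / 32 * n)]
  have f1 : (⌊4 * κ' * n⌋ : ℝ) ≤ 4 * κ' * n := Int.floor_le _
  have hρ2 : 2 ≤ ⌊4 * κ' * n⌋ := Int.le_floor.2 (by push_cast; linarith)
  intro ω hω hf
  refine ⟨fun ℓ hℓ hv => ⟨?_, ?_⟩, ?_, ?_, ?_⟩
  · exact H871.Q.frame_fLp_nonneg h0 h1 hβ hp hD hQ hgap hδ (by linarith) hn hb le_rfl hω
      (H685.mem_LE.1 hℓ).1 hv
  · rintro ⟨x, hx⟩
    exact Enl.frame_b hp hD hQ hgap hδ (by linarith) hn hb hbg h0 h1 le_rfl hω hf hℓ hv hR' x hx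
  · intro R₃ ω' h3 hω' hf' hc hc' hoff
    exact hC l p S₀ hp hD Q hQ bc hb g hgap hbg δ hδ dg n hn R₃ _ h3 hR' ω ω' hω hω' hf hf' hc
      hc' hoff
  · intro R₁ N₁ hR₁ hc hm
    have h2 := H662.D2.l2s_d hp hD hQ hgap hδ (by linarith) hn1 hb hbg h0 h1 hβ hω hf
      (κ₁ := g / 32) (by linarith) (by linarith) hR₁ hc hm
    refine h2.trans ?_
    have h3 : 0 ≤ TB θ (uI (frows θ β p Q n ⌊δ * (n : ℝ)⌋₊ bc))
        (rowC θ (frows θ β p Q n ⌊δ * (n : ℝ)⌋₊ bc) 0).ph (hB p Q n R₁) ω :=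
      (mul_nonneg_iff_of_pos_left (pow_pos (by linarith) _)).1
        ((Ttip_nonneg h0 h1 _ _ _).trans h2)
    exact mul_le_mul_of_nonneg_right
      (pow_le_pow_left₀ (by linarith) (le_max_left _ _) _) h3
  · intro R₃ Z N₂ h3 hc _ _ hne
    have h2 := he δ hδ dg n hn R₃ _ _ h3 hR' hρ2 (by linarith) (by linarith) ω hω hf hc hne
    refine h2.trans ?_
    have h4 : 0 ≤ TO θ (uI (frows θ β p Q n ⌊δ * (n : ℝ)⌋₊ bc))
        (rowC θ (frows θ β p Q n ⌊δ * (n : ℝ)⌋₊ bc) 0).ph (hB p Q n R₃) ω :=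
      (mul_nonneg_iff_of_pos_left (by linarith)).1 ((Tjun_nonneg h0 h1 _ _ _).trans h2)
    refine mul_le_mul_of_nonneg_right ?_ h4
    calc A₂ ≤ max A₁ A₂ := le_max_right _ _
      _ ≤ _ := le_self_pow₀ (hA₁.trans (le_max_left _ _)) (by omega)

end Vale.Agent.P167.H825.S
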