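import Vale.Agent.P167.H398.Q.Abs

/-!
# P167, general `q`, block Q-START, H7S: abstract lower bounds
-/

namespace Vale.Agent.P167.H398.Q

variable {Ω : Type*} {E : (Ω → ℝ) → ℝ} {C : (Ω → ℝ) → Prop} {Ok : Ω → Prop}

/-- **Lower bound by a majorant**: `T χ ≤ H D`, second moment of `H`, lower bound of the mean of
`T χ`. -/
theorem Fn.low (h : Fn E C Ok) {T H χ D : Ω → ℝ} (cT : C T) (cH : C H) (cχ : C χ) (cD : C D)
    {M c : ℝ} (hM : 0 < M) (hc : 0 < c) (hT : ∀ ω, Ok ω → 0 ≤ T ω) (hH : ∀ ω, Ok ω → 1 ≤ H ω)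
    (hχ : ∀ ω, Ok ω → 0 ≤ χ ω ∧ χ ω ≤ 1) (h1 : ∀ ω, Ok ω → T ω * χ ω ≤ H ω * D ω)
    (h2 : E (fun ω => T ω * H ω ^ 2) ≤ M * E T) (h3 : c * E T ≤ E (fun ω => T ω * χ ω)) :
    E T ≤ M / c ^ 2 * E D := by
  have cTH : C fun ω => T ω * H ω ^ 2 := by
    have := h.cmul cT (h.cmul cH cH)
    simpa only [pow_two] using this
  have cTχ := h.cmul cT cχ
  have hl : 0 < c / M := by positivity
  have key : E (fun ω => T ω * χ ω) ≤
      E (fun ω => (c / M) / 2 * (T ω * H ω ^ 2) + 1 / (2 * (c / M)) * D ω) := by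
    refine h.mono cTχ (h.clin cTH cD _ _) fun ω hω => ?_
    have a1 := hT ω hω
    have a2 := hH ω hω
    obtain ⟨a3, a4⟩ := hχ ω hω
    have a5 := h1 ω hω
    have a6 : 0 ≤ T ω * χ ω := mul_nonneg a1 a3
    have a7 : T ω * χ ω ≤ T ω := mul_le_of_le_one_right a1 a4
    have hH0 : 0 < H ω := by linarith
    have a8 : T ω * χ ω / H ω ≤ D ω := by
      rw [div_le_iff₀ hH0]
      linarith
    set l : ℝ := c / M
    have b1 : l / 2 * (T ω * χ ω * H ω) ≤ l / 2 * (T ω * H ω ^ 2) := by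
      refine mul_le_mul_of_nonneg_left ?_ (by positivity)
      calc T ω * χ ω * H ω ≤ T ω * H ω := mul_le_mul_of_nonneg_right a7 hH0.le
        _ ≤ T ω * H ω ^ 2 := by
          refine mul_le_mul_of_nonneg_left ?_ a1
          nlinarith
    have b2 : 1 / (2 * l) * (T ω * χ ω / H ω) ≤ 1 / (2 * l) * D ω :=
      mul_le_mul_of_nonneg_left a8 (by positivity)
    have b3 : T ω * χ ω ≤ l / 2 * (T ω * χ ω * H ω) + 1 / (2 * l) * (T ω * χ ω / H ω) := by
      have e : l / 2 * (T ω * χ ω * H ω) + 1 / (2 * l) * (T ω * χ ω / H ω) - T ω * χ ω =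
          T ω * χ ω * ((l * H ω - 1) ^ 2 / (2 * l * H ω)) := by
        field_simp
        ring
      have : 0 ≤ T ω * χ ω * ((l * H ω - 1) ^ 2 / (2 * l * H ω)) := by positivity
      linarith
    linarith
  rw [h.lin cTH cD] at key
  have k1 : (c / M) / 2 * E (fun ω => T ω * H ω ^ 2) ≤ (c / M) / 2 * (M * E T) :=
    mul_le_mul_of_nonneg_left h2 (by positivity)
  have k2 : (c / M) / 2 * (M * E T) = c / 2 * E T := by
    field_simp
  have k3 : c / 2 * E T ≤ 1 / (2 * (c / M)) * E D := by linarith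
  have k4 : 1 / (2 * (c / M)) * E D = c / 2 * (M / c ^ 2 * E D) := by
    field_simp
  rw [k4] at k3
  exact le_of_mul_le_mul_left k3 (by positivity)

/-- Sum of functions. -/
theorem Fn.csum (h : Fn E C Ok) {ι : Type*} (h0 : C fun _ => 0) (I : Finset ι) {F : ι → Ω → ℝ}
    (hF : ∀ i ∈ I, C (F i)) : C fun ω => ∑ i ∈ I, F i ω := by
  classical
  induction I using Finset.induction_on with
  | empty => simpa using h0
  | insert i I hi ih =>
    have := h.clin (hF i (Finset.mem_insert_self _ _))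
      (ih fun j hj => hF j (Finset.mem_insert_of_mem hj)) 1 1
    simp only [one_mul] at this
    simpa only [Finset.sum_insert hi] using this

theorem Fn.lsum (h : Fn E C Ok) {ι : Type*} (h0 : C fun _ => 0) (I : Finset ι) {F : ι → Ω → ℝ}
    (hF : ∀ i ∈ I, C (F i)) : E (fun ω => ∑ i ∈ I, F i ω) = ∑ i ∈ I, E (F i) := by
  classical
  induction I using Finset.induction_on with
  | empty =>
    simp only [Finset.sum_empty]
    have := h.smul h0 0
    simpa only [zero_mul] using this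
  | insert i I hi ih =>
    have h1 := h.csum h0 I fun j hj => hF j (Finset.mem_insert_of_mem hj)
    have := h.lin (hF i (Finset.mem_insert_self _ _)) h1 1 1
    simp only [one_mul] at this
    simp only [Finset.sum_insert hi]
    rw [this, ih fun j hj => hF j (Finset.mem_insert_of_mem hj)]

/-- **Union bound**: `T (1 - χ) ≤ ∑ T A_i`. -/
theorem Fn.union (h : Fn E C Ok) {ι : Type*} (h0 : C fun _ => 0) (I : Finset ι) {T χ : Ω → ℝ}
    {A : ι → Ω → ℝ} (cT : C T) (cχ : C χ) (cA : ∀ i ∈ I, C (A i)) {ψ : Ω → ℝ} (cψ : C ψ)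
    (hT : ∀ ω, Ok ω → 0 ≤ T ω)
    (h1 : ∀ ω, Ok ω → ψ ω ≤ χ ω + ∑ i ∈ I, A i ω) {η : ℝ}
    (h2 : ∀ i ∈ I, E (fun ω => T ω * A i ω) ≤ η * E T) :
    E (fun ω => T ω * ψ ω) ≤ E (fun ω => T ω * χ ω) + I.card * η * E T := by
  have c1 := h.csum h0 I fun i hi => h.cmul cT (cA i hi)
  have c2 := h.cmul cT cχ
  have c3 := h.cmul cT cψ
  have h3 : E (fun ω => T ω * ψ ω) ≤
      E (fun ω => 1 * (T ω * χ ω) + 1 * ∑ i ∈ I, T ω * A i ω) := by
    refine h.mono c3 (h.clin c2 c1 1 1) fun ω hω => ?_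
    have := mul_le_mul_of_nonneg_left (h1 ω hω) (hT ω hω)
    rw [mul_add, Finset.mul_sum] at this
    linarith
  rw [h.lin c2 c1, h.lsum h0 I fun i hi => h.cmul cT (cA i hi)] at h3
  have h4 : ∑ i ∈ I, E (fun ω => T ω * A i ω) ≤ ∑ _i ∈ I, η * E T := Finset.sum_le_sum h2
  rw [Finset.sum_const, nsmul_eq_mul] at h4
  calc _ ≤ _ := h3
    _ ≤ E (fun ω => T ω * χ ω) + I.card * (η * E T) := by linarith
    _ = _ := by ring

end Vale.Agent.P167.H398.Q
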