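import Vale.Agent.P167.H825.S.Loc
import Vale.Agent.P167.H825.S.Low

/-!
# P167, general `q`, block Q-START, H7S: arms and mixing at the holes
-/

namespace Vale.Agent.P167.H825.S

open Finset MeasureTheory
open Vale.Agent.P167.BR
open Vale.Agent.P167.FK
open Vale.Agent.P167.FKA (Loc Ind ArmDec)
open Vale.Agent.P167.H519 (IsLim)
open Vale.Agent.P167.QX (QL)
open Vale.Agent.P167.H398.Q
open Vale.Agent.P167.H506.Q (EF RM rm_holes fac_le fac)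

variable {q : ℝ} {K : Finset (ℤ × ℤ)} {κ : Cfg} {P : Measure Cfg} {ι : Type}

/-- **The mean off the arms.** -/
theorem low_arm (hQ : 1 ≤ q) (hP : IsLim q P) (hg : ∀ᵐ ω ∂P, Good ω) {α C : ℝ}
    (h : ArmDec q α C) (J : Finset ι) (c : ι → ℤ × ℤ) (b : ι → Bool) {r R : ℤ} (hr : 1 ≤ r)
    (hrR : r ≤ R) (hκ : ∀ i ∈ J, ∀ v ∈ K, v ∈ Bq (c i) R → κ v = b i) {T ψ : Cfg → ℝ}
    (hT0 : ∀ ω, 0 ≤ T ω) (cT : CB T) (hTi : ∀ i ∈ J, Ind (Bq (c i) R \ Bq (c i) r) T)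
    (cψ : CB ψ) (hψ : ∀ ω, 0 ≤ ψ ω ∧ ψ ω ≤ 1) :
    EF P K κ (fun ω => T ω * ψ ω) ≤
      EF P K κ (fun ω => T ω * (ψ ω * (NA J b c r R).indicator 1 ω)) +
        J.card * (C * ((r : ℝ) / R) ^ α) * EF P K κ T := by
  classical
  have hPp : IsProbabilityMeasure P := hP.1
  refine (fn_EF hg).union (CB.const 0) J (A := fun i => {ω | Arm (b i) (c i) r R ω}.indicator 1)
    cT (cψ.mul cb_NA) (fun i _ => CB.of_loc (Arm.loc (b i) (c i) r R)) cψ (fun ω _ => hT0 ω)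
    (fun ω _ => ?_) fun i hi => ?_
  · obtain ⟨h1, h2⟩ := hψ ω
    have h3 : ∀ i, (0 : ℝ) ≤ ({ω | Arm (b i) (c i) r R ω}.indicator 1 ω) := fun i =>
      Set.indicator_nonneg (fun _ _ => zero_le_one) _
    by_cases hn : ω ∈ NA J b c r R
    · rw [Set.indicator_of_mem hn, Pi.one_apply, mul_one]
      have := Finset.sum_nonneg fun i (_ : i ∈ J) => h3 i
      linarith
    · rw [Set.indicator_of_notMem hn, mul_zero, zero_add]
      unfold NA at hn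
      rw [Set.mem_ofPred_eq] at hn
      push Not at hn
      obtain ⟨i, hi, ha⟩ := hn
      have h4 := Finset.single_le_sum (fun j (_ : j ∈ J) => h3 j) hi
      rw [Set.indicator_of_mem (show ω ∈ {ω | Arm (b i) (c i) r R ω} from ha),
        Pi.one_apply] at h4
      exact h2.trans h4
  · obtain ⟨M, hM⟩ := cT.2
    exact EF_arm hQ hP hg h hr hrR (fun v hv hv' => hκ i hi v hv (mem_sdiff.1 hv').1) hT0 cT.1 hM
      ((hTi i hi).mono sdiff_subset)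

/-- **Mixing at the holes**, ratio form with the constant `2`. -/
theorem ratio_holes [DecidableEq ι] (hQ : 1 ≤ q) (hκg : Good κ) (hP : IsLim q P)
    (hg : ∀ᵐ ω ∂P, Good ω) {α C : ℝ} (h : ArmDec q α C) (J : Finset ι) (c : ι → ℤ × ℤ)
    {r R : ℤ} (hr : 1 ≤ r) (hrR : r ≤ R)
    (hdis : ∀ i ∈ J, ∀ j ∈ J, i ≠ j → Disjoint (Bq (c i) R) (Bq (c j) R))
    (hcol : ∀ i ∈ J, ∃ b : Bool, ∀ v ∈ K, v ∈ Bq (c i) R → κ v = b)
    (hC : 0 ≤ C) (hε1 : C * ((r : ℝ) / R) ^ α < 1)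
    (hε : 8 * J.card * (C * ((r : ℝ) / R) ^ α) ≤ 1) {T G : Cfg → ℝ} (hT0 : ∀ ω, 0 ≤ T ω)
    (hT : Loc (J.biUnion fun i => Bq (c i) r) T) (hG0 : ∀ ω, 0 ≤ G ω) (cG : CB G)
    (hG : Ind (J.biUnion fun i => Bq (c i) R) G) :
    EF P K κ (fun ω => G ω * T ω) ≤ 2 * (EF P K κ G * EF P K κ T) ∧
      EF P K κ G * EF P K κ T ≤ 2 * EF P K κ (fun ω => G ω * T ω) := by
  have hRr : (0 : ℝ) < r := by exact_mod_cast (by omega : 0 < r)
  have hRR : (0 : ℝ) < R := by exact_mod_cast (by omega : 0 < R)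
  have hε0 : 0 ≤ C * ((r : ℝ) / R) ^ α := by positivity
  obtain ⟨M, hM⟩ := cG.2
  have hT' : Loc (((J.biUnion fun i => Bq (c i) r) \ K) ∪ K) T := by
    rw [Finset.sdiff_union_self_eq_union]
    exact fun ω ω' hh => hT ω ω' fun v hv => hh v (mem_union_left _ hv)
  obtain ⟨h1, h2⟩ := (rm_holes hQ hκg h J c hr hrR hdis hcol hε1).EF_ratio hQ
    Finset.sdiff_disjoint hP hg hT0 hT' hG0 cG.1 hM (hG.mono sdiff_subset)
  have h3 := fac_le hε0 hε hε1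
  have h4 : fac J.card (C * ((r : ℝ) / R) ^ α) ≤ 2 := by linarith
  exact ⟨h1.trans (mul_le_mul_of_nonneg_right h4 (mul_nonneg (H506.Q.EF_nonneg hG0)
    (H506.Q.EF_nonneg hT0))), h2.trans (mul_le_mul_of_nonneg_right h4
    (H506.Q.EF_nonneg fun ω => mul_nonneg (hG0 ω) (hT0 ω)))⟩

end Vale.Agent.P167.H825.S
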